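import Mathlib

/-!
The algebra of the monotonicity formula.
-/

namespace Vale.Agent.P224.SM

/-- the integrand; P0, P, P1, P2 are the powers m - 1, m, m + 1, m + 2 of 1 / (1 - T s) -/
noncomputable def gI (m T y Z e r s t p c P0 P P1 P2 : ℝ) : ℝ :=
  (1 - T ^ 2) * y * P + ((1 - T ^ 2) * y - 2 * Z) / (m - 1) * P0 + 2 * e * (c - s) * P
    + c * ((1 - T ^ 2) * (T * y + m * r)) * P
    - m * (m + 1) * T ^ 2 * (1 - T ^ 2) * r * c * (p * t) * P2
    + m * T * (1 - T ^ 2) * r * ((p ^ 2 + t ^ 2) / 2) * (P1 - (m + 1) * P2)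

/-- first variation with field z -/
noncomputable def S1 (m s t p c f fs ft : ℝ) : ℝ :=
  fs * (1 - s ^ 2 - p ^ 2) - ft * (s * t + p * c) - m * s * f

/-- first variation with field ν -/
noncomputable def S2 (m s t p c g gs gt : ℝ) : ℝ :=
  gt * (1 - t ^ 2 - c ^ 2) - gs * (s * t + p * c) - m * t * g

/-- closedness -/
noncomputable def CC (m s t p c h hs ht : ℝ) : ℝ :=
  p * ht - t * p * (s * hs + t * ht) - m * t * p * h - c * hs * (1 - s ^ 2) + c * s * t * ht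
    + m * c * s * h

/-- the sum of the rows at level T -/
noncomputable def RR (m T y e r s t p c v P : ℝ) : ℝ :=
  (y - e / T) * S1 m s t p c P (m * T * (P / v)) 0
  - m * (m + 1) * T * r * S1 m s t p c (t ^ 2 * (P / v ^ 2)) (t ^ 2 * ((m + 2) * T * (P / v ^ 3)))
      (2 * t * (P / v ^ 2))
  + m * e * S2 m s t p c (t * (P / v)) (t * ((m + 1) * T * (P / v ^ 2))) (P / v)
  - (T * y + m * r) * CC m s t p c P (m * T * (P / v)) 0
  + m * (m + 1) * T ^ 2 * r * CC m s t p c (t ^ 2 * (P / v ^ 2))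
      (t ^ 2 * ((m + 2) * T * (P / v ^ 3))) (2 * t * (P / v ^ 2))

/-- the nonnegative term -/
noncomputable def FF (m T y e r s t p c v P : ℝ) : ℝ :=
  m * e * (P / v) * (c - s) ^ 2 + (p - t) ^ 2 / 2 * (m * (T * y + m * r) * (P / v)
    + m * (m + 1) * T ^ 2 * r * (P / v ^ 3) * (2 * v - (m + 2) * ((s * c - p * t) - T * c)))

/-- derivative of the integrand -/
noncomputable def gI' (m T y Z e r y' Z' e' r' s t p c P0 P P1 P2 P3 : ℝ) : ℝ :=
  ((-(2 * T)) * y + (1 - T ^ 2) * y') * P + (1 - T ^ 2) * y * (m * s * P1)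
  + ((-(2 * T)) * y + (1 - T ^ 2) * y' - 2 * Z') / (m - 1) * P0
  + ((1 - T ^ 2) * y - 2 * Z) / (m - 1) * ((m - 1) * s * P)
  + 2 * e' * (c - s) * P + 2 * e * (c - s) * (m * s * P1)
  + c * (-(2 * T) * (T * y + m * r) + (1 - T ^ 2) * (y + T * y' + m * r')) * P
  + c * ((1 - T ^ 2) * (T * y + m * r)) * (m * s * P1)
  - m * (m + 1) * (2 * T * (1 - T ^ 2) * r - 2 * T ^ 3 * r + T ^ 2 * (1 - T ^ 2) * r') * c
      * (p * t) * P2
  - m * (m + 1) * T ^ 2 * (1 - T ^ 2) * r * c * (p * t) * ((m + 2) * s * P3)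
  + m * ((1 - T ^ 2) * r - 2 * T ^ 2 * r + T * (1 - T ^ 2) * r') * ((p ^ 2 + t ^ 2) / 2)
      * (P1 - (m + 1) * P2)
  + m * T * (1 - T ^ 2) * r * ((p ^ 2 + t ^ 2) / 2)
      * ((m + 1) * s * P2 - (m + 1) * ((m + 2) * s * P3))

theorem key_identity (m T y Z e r y' Z' e' r' s t p c v P : ℝ) (hT : T ≠ 0)
    (hk : 1 - T ^ 2 ≠ 0) (hm : m - 1 ≠ 0) (hv : v ≠ 0) (hvs : v = 1 - T * s)
    (hZ' : Z' = m / (2 * T) * (Z - y))
    (hy' : y' = (Z - y - (m - 3) * T ^ 2 * y) / (T * (1 - T ^ 2)))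
    (he' : e' = (m * e / T - Z) / 2)
    (hr' : r' = -(e / T + (m - 2) * T * r) / (1 - T ^ 2)) :
    gI' m T y Z e r y' Z' e' r' s t p c (P * v) P (P / v) (P / v ^ 2) (P / v ^ 3)
      = -((RR m T y e r s t p c v P + RR m T y e r s p t c v P) / 2
      + FF m T y e r s t p c v P) := by
  have hs : s = (1 - v) / T := by rw [hvs]; field_simp; ring
  subst hs hZ' hy' he' hr'
  simp only [gI', RR, FF, S1, S2, CC]
  field_simp
  ring

/-- the derivative of the integrand -/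
theorem hasDerivAt_gI {m T s t p c : ℝ} {y Z e r P0 P P1 P2 : ℝ → ℝ} {y' Z' e' r' P3 : ℝ}
    (hy : HasDerivAt y y' T) (hZ : HasDerivAt Z Z' T) (he : HasDerivAt e e' T)
    (hr : HasDerivAt r r' T) (hP0 : HasDerivAt P0 ((m - 1) * s * P T) T)
    (hP : HasDerivAt P (m * s * P1 T) T) (hP1 : HasDerivAt P1 ((m + 1) * s * P2 T) T)
    (hP2 : HasDerivAt P2 ((m + 2) * s * P3) T) :
    HasDerivAt (fun T => gI m T (y T) (Z T) (e T) (r T) s t p c (P0 T) (P T) (P1 T) (P2 T))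
      (gI' m T (y T) (Z T) (e T) (r T) y' Z' e' r' s t p c (P0 T) (P T) (P1 T) (P2 T) P3) T := by
  have hk : HasDerivAt (fun T : ℝ => 1 - T ^ 2) (-(2 * T)) T := by
    simpa using (hasDerivAt_pow 2 T).const_sub 1
  have hid : HasDerivAt (fun T : ℝ => T) 1 T := hasDerivAt_id T
  have hsq : HasDerivAt (fun T : ℝ => T ^ 2) (2 * T) T := by simpa using hasDerivAt_pow 2 T
  have h0 := hk.fun_mul hy
  have h1 := h0.fun_mul hP
  have h2 := ((h0.fun_sub (hZ.const_mul 2)).div_const (m - 1)).fun_mul hP0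
  have h2b := ((he.const_mul 2).mul_const (c - s)).fun_mul hP
  have h3 := ((hk.fun_mul ((hid.fun_mul hy).fun_add (hr.const_mul m))).const_mul c).fun_mul hP
  have h4 := (((((hsq.const_mul (m * (m + 1))).fun_mul hk).fun_mul hr).mul_const c).mul_const
    (p * t)).fun_mul hP2
  have h5 := (((((hid.const_mul m).fun_mul hk).fun_mul hr).mul_const
    ((p ^ 2 + t ^ 2) / 2))).fun_mul (hP1.fun_sub (hP2.const_mul (m + 1)))
  have h := ((((h1.fun_add h2).fun_add h2b).fun_add h3).fun_sub h4).fun_add h5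
  refine h.congr_deriv ?_
  simp only [gI']
  ring

/-- the determinant bound for contractions -/
theorem det_bound {s t p c : ℝ} (h1 : s ^ 2 + p ^ 2 ≤ 1) (h2 : t ^ 2 + c ^ 2 ≤ 1)
    (h3 : s ^ 2 + t ^ 2 + p ^ 2 + c ^ 2 ≤ 1 + (s * c - p * t) ^ 2) :
    |s - c| ≤ 1 - (s * c - p * t) := by
  have h4 : (s * c - p * t) ^ 2 ≤ 1 := by
    have h5 : (s * c - p * t) ^ 2 ≤ (s ^ 2 + p ^ 2) * (t ^ 2 + c ^ 2) := by
      nlinarith [sq_nonneg (s * t + p * c)]
    have h6 : (s ^ 2 + p ^ 2) * (t ^ 2 + c ^ 2) ≤ 1 * 1 :=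
      mul_le_mul h1 h2 (by positivity) zero_le_one
    linarith
  have h7 : s * c - p * t ≤ 1 := by nlinarith [sq_nonneg (s * c - p * t - 1)]
  apply abs_le_of_sq_le_sq _ (by linarith)
  nlinarith [sq_nonneg (t + p)]

/-- positivity of the defect -/
theorem FF_nonneg {m T y e r s t p c v P : ℝ} (hm : 0 ≤ m) (hT : 0 < T) (hT1 : T ≤ 1)
    (he : 0 ≤ e) (hr : 0 ≤ r) (hv : 1 - T ≤ v) (hv0 : 0 < v) (hvs : v = 1 - T * s) (hP : 0 ≤ P)
    (hdet : |s - c| ≤ 1 - (s * c - p * t)) (hy : 0 ≤ T * y + m * r)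
    (hpos : m * (m + 1) * T ^ 2 * r ≤ (1 - T) * (T * y + m * r)) :
    0 ≤ FF m T y e r s t p c v P := by
  have hD : (s * c - p * t) - T * c ≤ v := by
    have h1 := le_abs_self (s - c)
    have h2 := abs_nonneg (s - c)
    have h3 : T * (s - c) ≤ 1 * |s - c| := by
      calc T * (s - c) ≤ T * |s - c| := mul_le_mul_of_nonneg_left h1 hT.le
        _ ≤ 1 * |s - c| := mul_le_mul_of_nonneg_right hT1 h2
    rw [hvs]
    linarith
  have e3 : m * (T * y + m * r) * (P / v)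
      + m * (m + 1) * T ^ 2 * r * (P / v ^ 3) * (2 * v - (m + 2) * ((s * c - p * t) - T * c))
      = m * (P / v ^ 3) * ((T * y + m * r) * v ^ 2
        + (m + 1) * T ^ 2 * r * (2 * v - (m + 2) * ((s * c - p * t) - T * c))) := by
    field_simp
  have e4 : 0 ≤ m * ((T * y + m * r) * v ^ 2
        + (m + 1) * T ^ 2 * r * (2 * v - (m + 2) * ((s * c - p * t) - T * c))) := by
    have e5 : m * (m + 1) * T ^ 2 * r * ((m + 2) * ((s * c - p * t) - T * c))
        ≤ m * (m + 1) * T ^ 2 * r * ((m + 2) * v) :=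
      mul_le_mul_of_nonneg_left (mul_le_mul_of_nonneg_left hD (by positivity)) (by positivity)
    have e6 : m * (m * (m + 1) * T ^ 2 * r) * v ≤ m * ((1 - T) * (T * y + m * r)) * v :=
      mul_le_mul_of_nonneg_right (mul_le_mul_of_nonneg_left hpos hm) hv0.le
    have e7 : m * ((1 - T) * (T * y + m * r)) * v ≤ m * (v * (T * y + m * r)) * v :=
      mul_le_mul_of_nonneg_right (mul_le_mul_of_nonneg_left
        (mul_le_mul_of_nonneg_right hv hy) hm) hv0.le
    nlinarith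
  unfold FF
  rw [e3]
  have : 0 ≤ m * (P / v ^ 3) * ((T * y + m * r) * v ^ 2
        + (m + 1) * T ^ 2 * r * (2 * v - (m + 2) * ((s * c - p * t) - T * c))) := by
    have h8 := mul_nonneg (by positivity : 0 ≤ P / v ^ 3) e4
    linarith
  have h7 : 0 ≤ m * e * (P / v) * (c - s) ^ 2 := by positivity
  have h8 := mul_nonneg (by positivity : 0 ≤ (p - t) ^ 2 / 2) this
  linarith

end Vale.Agent.P224.SM
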