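import Mathlib

/-!
The one-variable integrals of the certificate.
-/

namespace Vale.Agent.P224.SM

open MeasureTheory Set Filter Function Real
open scoped Topology

/-- differentiation of a parametric interval integral -/
lemma deriv_interval {b : ℝ} (hb : 0 ≤ b) {S : Set ℝ} (hS : IsOpen S) {g g' : ℝ → ℝ → ℝ}
    (hg : ContinuousOn (uncurry g) (S ×ˢ Icc 0 b))
    (hg' : ContinuousOn (uncurry g') (S ×ˢ Icc 0 b))
    (hd : ∀ T ∈ S, ∀ θ ∈ Icc 0 b, HasDerivAt (fun T => g T θ) (g' T θ) T) {T₀ : ℝ}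
    (hT₀ : T₀ ∈ S) :
    HasDerivAt (fun T => ∫ θ in (0 : ℝ)..b, g T θ) (∫ θ in (0 : ℝ)..b, g' T₀ θ) T₀ := by
  obtain ⟨ε, hε, hball⟩ := Metric.isOpen_iff.1 hS T₀ hT₀
  have hsub : Metric.closedBall T₀ (ε / 2) ⊆ S :=
    (Metric.closedBall_subset_ball (by linarith)).trans hball
  obtain ⟨C, hC⟩ := ((isCompact_closedBall T₀ (ε / 2)).prod
    (isCompact_Icc (a := (0 : ℝ)) (b := b))).exists_bound_of_continuousOn
    (hg'.mono (prod_mono hsub subset_rfl))
  have hslice : ∀ {f : ℝ → ℝ → ℝ}, ContinuousOn (uncurry f) (S ×ˢ Icc 0 b) → ∀ T ∈ S,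
      ContinuousOn (f T) (Icc 0 b) := by
    intro f hf T hT
    have h2 : ContinuousOn (fun k : ℝ => (T, k)) (Icc 0 b) := by fun_prop
    exact hf.comp h2 (fun k hk => ⟨hT, hk⟩)
  have hsm : ∀ {f : ℝ → ℝ}, ContinuousOn f (Icc 0 b) →
      AEStronglyMeasurable f (volume.restrict (uIoc 0 b)) := by
    intro f hf
    rw [uIoc_of_le hb]
    exact (hf.mono Ioc_subset_Icc_self).aestronglyMeasurable measurableSet_Ioc
  have hIcc : ∀ θ ∈ uIoc 0 b, θ ∈ Icc 0 b := by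
    intro θ hθ
    rw [uIoc_of_le hb] at hθ
    exact Ioc_subset_Icc_self hθ
  have key := intervalIntegral.hasDerivAt_integral_of_dominated_loc_of_deriv_le (μ := volume)
    (a := 0) (b := b) (s := Metric.ball T₀ (ε / 2)) (x₀ := T₀) (F := g) (F' := g')
    (bound := fun _ => C) (Metric.ball_mem_nhds _ (by positivity))
    (by
      filter_upwards [hS.mem_nhds hT₀] with T hT
      exact hsm (hslice hg T hT))
    (by
      refine ContinuousOn.intervalIntegrable ?_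
      rw [uIcc_of_le hb]
      exact hslice hg T₀ hT₀)
    (hsm (hslice hg' T₀ hT₀))
    (Eventually.of_forall fun θ hθ T hT =>
      hC (T, θ) ⟨Metric.ball_subset_closedBall hT, hIcc θ hθ⟩)
    intervalIntegrable_const
    (Eventually.of_forall fun θ hθ T hT =>
      hd T (hsub (Metric.ball_subset_closedBall hT)) θ (hIcc θ hθ))
  exact key.2

/-- the weight -/
noncomputable def wt (a θ : ℝ) : ℝ := (sin θ * cos θ) ^ (a - 1)

/-- the inverse root -/
noncomputable def Q (T θ : ℝ) : ℝ := (√(sin θ ^ 2 + T ^ 2 * cos θ ^ 2))⁻¹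

noncomputable def II (a T : ℝ) : ℝ := ∫ θ in (0 : ℝ)..(π / 2), wt a θ * Q T θ

noncomputable def Jc (a T : ℝ) : ℝ := ∫ θ in (0 : ℝ)..(π / 2), wt a θ * sin θ ^ 2 * Q T θ ^ 3

noncomputable def Kc (a T : ℝ) : ℝ := ∫ θ in (0 : ℝ)..(π / 2), wt a θ * cos θ ^ 2 * Q T θ ^ 3

noncomputable def Lc (a T : ℝ) : ℝ :=
  ∫ θ in (0 : ℝ)..(π / 2), wt a θ * sin θ ^ 2 * cos θ ^ 2 * Q T θ ^ 5

lemma D_pos {T θ : ℝ} (hT : T ≠ 0) : 0 < sin θ ^ 2 + T ^ 2 * cos θ ^ 2 := by
  have h1 : 0 < T ^ 2 := by positivity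
  rcases eq_or_ne (sin θ) 0 with h | h
  · have h2 : cos θ ^ 2 = 1 := by
      have := sin_sq_add_cos_sq θ
      rw [h] at this
      linarith
    rw [h, h2]
    linarith
  · positivity

lemma D_pos' {T θ : ℝ} (hs : 0 < sin θ) : 0 < sin θ ^ 2 + T ^ 2 * cos θ ^ 2 := by positivity

lemma Q_pos {T θ : ℝ} (h : 0 < sin θ ^ 2 + T ^ 2 * cos θ ^ 2) : 0 < Q T θ :=
  inv_pos.2 (sqrt_pos.2 h)

lemma Q_sq {T θ : ℝ} (h : 0 < sin θ ^ 2 + T ^ 2 * cos θ ^ 2) :
    Q T θ ^ 2 * (sin θ ^ 2 + T ^ 2 * cos θ ^ 2) = 1 := by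
  unfold Q
  rw [inv_pow, sq_sqrt h.le]
  exact inv_mul_cancel₀ h.ne'

lemma hasDerivAt_Q_T {T θ : ℝ} (h : 0 < sin θ ^ 2 + T ^ 2 * cos θ ^ 2) :
    HasDerivAt (fun T => Q T θ) (-(T * cos θ ^ 2 * Q T θ ^ 3)) T := by
  have h1 : HasDerivAt (fun T : ℝ => sin θ ^ 2 + T ^ 2 * cos θ ^ 2) (2 * T * cos θ ^ 2) T := by
    have := ((hasDerivAt_pow 2 T).mul_const (cos θ ^ 2)).const_add (sin θ ^ 2)
    simpa using this
  have hs := sqrt_pos.2 h
  have h2 := (h1.sqrt h.ne').fun_inv hs.ne'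
  refine h2.congr_deriv ?_
  unfold Q
  field_simp

lemma hasDerivAt_Q_θ {T θ : ℝ} (h : 0 < sin θ ^ 2 + T ^ 2 * cos θ ^ 2) :
    HasDerivAt (fun θ => Q T θ) (-(sin θ * cos θ * (1 - T ^ 2) * Q T θ ^ 3)) θ := by
  have h1 : HasDerivAt (fun θ : ℝ => sin θ ^ 2 + T ^ 2 * cos θ ^ 2)
      (2 * sin θ * cos θ * (1 - T ^ 2)) θ := by
    have := ((hasDerivAt_sin θ).fun_pow 2).fun_add (((hasDerivAt_cos θ).fun_pow 2).const_mul (T ^ 2))
    refine this.congr_deriv ?_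
    simp
    ring
  have hs := sqrt_pos.2 h
  have h2 := (h1.sqrt h.ne').fun_inv hs.ne'
  refine h2.congr_deriv ?_
  unfold Q
  field_simp

lemma continuous_wt {a : ℝ} (ha : 1 ≤ a) : Continuous (wt a) := by
  unfold wt
  exact (continuous_sin.mul continuous_cos).rpow_const fun _ => Or.inr (by linarith)

lemma contOn_Q : ContinuousOn (uncurry Q) (Ioi 0 ×ˢ Icc 0 (π / 2)) := by
  unfold uncurry Q
  refine ContinuousOn.inv₀ (Continuous.continuousOn (by fun_prop)) ?_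
  rintro ⟨T, θ⟩ ⟨hT, -⟩
  have hT' : T ≠ 0 := (show (0 : ℝ) < T from hT).ne'
  exact (sqrt_pos.2 (D_pos hT')).ne'

lemma contOn_wt2 {a : ℝ} (ha : 1 ≤ a) :
    ContinuousOn (fun z : ℝ × ℝ => wt a z.2) (Ioi 0 ×ˢ Icc 0 (π / 2)) :=
  ((continuous_wt ha).comp continuous_snd).continuousOn

/-- the first derivative -/
theorem hasDerivAt_II {a : ℝ} (ha : 1 ≤ a) {T : ℝ} (hT : 0 < T) :
    HasDerivAt (II a) (-(T * Kc a T)) T := by
  have hpi := pi_pos
  have cQ : ContinuousOn (fun z : ℝ × ℝ => Q z.1 z.2) (Ioi 0 ×ˢ Icc 0 (π / 2)) := contOn_Q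
  have cw := contOn_wt2 ha
  have h := deriv_interval (b := π / 2) (by positivity) isOpen_Ioi
    (g := fun T θ => wt a θ * Q T θ) (g' := fun T θ => -(T * (wt a θ * cos θ ^ 2 * Q T θ ^ 3)))
    (cw.mul cQ) ?_ ?_ (show T ∈ Ioi (0 : ℝ) from hT)
  · refine h.congr_deriv ?_
    rw [intervalIntegral.integral_neg, intervalIntegral.integral_const_mul]
    rfl
  · have c1 : ContinuousOn (fun z : ℝ × ℝ => cos z.2 ^ 2) (Ioi 0 ×ˢ Icc 0 (π / 2)) := by fun_prop
    exact (continuousOn_fst.mul ((cw.mul c1).mul (cQ.pow 3))).neg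
  · intro T hT θ _
    have h1 := (hasDerivAt_Q_T (θ := θ) (D_pos (show (0 : ℝ) < T from hT).ne')).const_mul (wt a θ)
    refine h1.congr_deriv ?_
    ring

/-- the second derivative -/
theorem hasDerivAt_Jc {a : ℝ} (ha : 1 ≤ a) {T : ℝ} (hT : 0 < T) :
    HasDerivAt (Jc a) (-(3 * T * Lc a T)) T := by
  have hpi := pi_pos
  have cQ : ContinuousOn (fun z : ℝ × ℝ => Q z.1 z.2) (Ioi 0 ×ˢ Icc 0 (π / 2)) := contOn_Q
  have cw := contOn_wt2 ha
  have c1 : ContinuousOn (fun z : ℝ × ℝ => cos z.2 ^ 2) (Ioi 0 ×ˢ Icc 0 (π / 2)) := by fun_prop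
  have c2 : ContinuousOn (fun z : ℝ × ℝ => sin z.2 ^ 2) (Ioi 0 ×ˢ Icc 0 (π / 2)) := by fun_prop
  have hg : ContinuousOn (uncurry fun T θ => wt a θ * sin θ ^ 2 * Q T θ ^ 3)
      (Ioi (0 : ℝ) ×ˢ Icc 0 (π / 2)) := (cw.mul c2).mul (cQ.pow 3)
  have h := deriv_interval (b := π / 2) (by positivity) isOpen_Ioi
    (g := fun T θ => wt a θ * sin θ ^ 2 * Q T θ ^ 3)
    (g' := fun T θ => -(3 * T * (wt a θ * sin θ ^ 2 * cos θ ^ 2 * Q T θ ^ 5)))
    hg ?_ ?_ (show T ∈ Ioi (0 : ℝ) from hT)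
  · refine h.congr_deriv ?_
    rw [intervalIntegral.integral_neg, intervalIntegral.integral_const_mul]
    rfl
  · exact ((continuousOn_const.mul continuousOn_fst).mul
      (((cw.mul c2).mul c1).mul (cQ.pow 5))).neg
  · intro T hT θ _
    have h1 := ((hasDerivAt_Q_T (θ := θ) (D_pos (show (0 : ℝ) < T from hT).ne')).fun_pow
      3).const_mul (wt a θ * sin θ ^ 2)
    refine h1.congr_deriv ?_
    push_cast
    ring

lemma contOn_slice_Q {T : ℝ} (hT : T ≠ 0) : Continuous (Q T) := by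
  unfold Q
  refine Continuous.inv₀ (by fun_prop) fun θ => (sqrt_pos.2 (D_pos hT)).ne'

lemma intI {a : ℝ} (ha : 1 ≤ a) {T : ℝ} (hT : T ≠ 0) (f : ℝ → ℝ) (hf : Continuous f) (k : ℕ) :
    IntervalIntegrable (fun θ => wt a θ * f θ * Q T θ ^ k) volume 0 (π / 2) :=
  (((continuous_wt ha).mul hf).mul ((contOn_slice_Q hT).pow k)).intervalIntegrable _ _

/-- the first linear relation -/
theorem II_rel {a : ℝ} (ha : 1 ≤ a) {T : ℝ} (hT : T ≠ 0) :
    II a T - T ^ 2 * Kc a T = Jc a T := by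
  unfold II Kc Jc
  rw [← intervalIntegral.integral_const_mul, ← intervalIntegral.integral_sub]
  · refine intervalIntegral.integral_congr fun θ _ => ?_
    have h := Q_sq (θ := θ) (D_pos hT)
    have e : Q T θ = Q T θ ^ 3 * (sin θ ^ 2 + T ^ 2 * cos θ ^ 2) := by
      calc Q T θ = Q T θ * 1 := (mul_one _).symm
        _ = Q T θ * (Q T θ ^ 2 * (sin θ ^ 2 + T ^ 2 * cos θ ^ 2)) := by rw [h]
        _ = _ := by ring
    calc wt a θ * Q T θ - T ^ 2 * (wt a θ * cos θ ^ 2 * Q T θ ^ 3)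
        = wt a θ * (Q T θ ^ 3 * (sin θ ^ 2 + T ^ 2 * cos θ ^ 2))
          - T ^ 2 * (wt a θ * cos θ ^ 2 * Q T θ ^ 3) := by rw [← e]
      _ = _ := by ring
  · have := intI ha hT (fun _ => 1) continuous_const 1
    simpa using this
  · exact (intI ha hT _ (continuous_cos.pow 2) 3).const_mul _

/-- the second linear relation, by integration by parts -/
theorem Jc_rel {a : ℝ} (ha : 1 < a) {T : ℝ} (hT : T ≠ 0) :
    3 * T ^ 2 * (1 - T ^ 2) * Lc a T = a * (II a T - (1 + T ^ 2) * Jc a T) := by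
  have hpi := pi_pos
  have hFTC := intervalIntegral.integral_eq_sub_of_hasDerivAt_of_le (a := 0) (b := π / 2)
    (f := fun θ => (sin θ * cos θ) ^ a * Q T θ ^ 3)
    (f' := fun θ => a * (wt a θ * (cos θ ^ 2 - sin θ ^ 2) * Q T θ ^ 3)
      - 3 * (1 - T ^ 2) * (wt a θ * (sin θ ^ 2 * cos θ ^ 2) * Q T θ ^ 5)) (by positivity) ?_ ?_ ?_
  · have e0 : (sin 0 * cos 0) ^ a = 0 := by
      rw [sin_zero, zero_mul]
      exact zero_rpow (by linarith)
    have e1 : (sin (π / 2) * cos (π / 2)) ^ a = 0 := by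
      rw [cos_pi_div_two, mul_zero]
      exact zero_rpow (by linarith)
    simp only [e0, e1, zero_mul, sub_zero] at hFTC
    have hi1 := (intI ha.le hT (fun θ => cos θ ^ 2 - sin θ ^ 2) (by fun_prop) 3).const_mul a
    have hi2 := (intI ha.le hT (fun θ => sin θ ^ 2 * cos θ ^ 2) (by fun_prop) 5).const_mul
      (3 * (1 - T ^ 2))
    rw [intervalIntegral.integral_sub hi1 hi2, intervalIntegral.integral_const_mul,
      intervalIntegral.integral_const_mul] at hFTC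
    have hL : ∫ θ in (0 : ℝ)..(π / 2), wt a θ * (sin θ ^ 2 * cos θ ^ 2) * Q T θ ^ 5 = Lc a T := by
      unfold Lc
      refine intervalIntegral.integral_congr fun θ _ => ?_
      ring
    have hK : T ^ 2 * ∫ θ in (0 : ℝ)..(π / 2), wt a θ * (cos θ ^ 2 - sin θ ^ 2) * Q T θ ^ 3
        = II a T - (1 + T ^ 2) * Jc a T := by
      have h1 := II_rel ha.le hT
      have h2 : ∫ θ in (0 : ℝ)..(π / 2), wt a θ * (cos θ ^ 2 - sin θ ^ 2) * Q T θ ^ 3
          = Kc a T - Jc a T := by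
        unfold Kc Jc
        rw [← intervalIntegral.integral_sub
          (intI ha.le hT (fun θ => cos θ ^ 2) (continuous_cos.pow 2) 3)
          (intI ha.le hT (fun θ => sin θ ^ 2) (continuous_sin.pow 2) 3)]
        refine intervalIntegral.integral_congr fun θ _ => ?_
        ring
      rw [h2]
      linarith
    rw [hL] at hFTC
    have h3 : T ^ 2 * (a * ∫ θ in (0 : ℝ)..(π / 2),
        wt a θ * (cos θ ^ 2 - sin θ ^ 2) * Q T θ ^ 3)
        = a * (II a T - (1 + T ^ 2) * Jc a T) := by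
      rw [← hK]; ring
    have h4 : T ^ 2 * (a * ∫ θ in (0 : ℝ)..(π / 2),
        wt a θ * (cos θ ^ 2 - sin θ ^ 2) * Q T θ ^ 3) = 3 * T ^ 2 * (1 - T ^ 2) * Lc a T := by
      have h5 : a * ∫ θ in (0 : ℝ)..(π / 2), wt a θ * (cos θ ^ 2 - sin θ ^ 2) * Q T θ ^ 3
          = 3 * (1 - T ^ 2) * Lc a T := by linarith
      rw [h5]; ring
    rw [← h4, h3]
  · refine ContinuousOn.mul ?_ ((contOn_slice_Q hT).pow 3).continuousOn
    exact ((continuous_sin.mul continuous_cos).rpow_const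
      fun _ => Or.inr (by linarith)).continuousOn
  · intro θ hθ
    have hs : 0 < sin θ := sin_pos_of_pos_of_lt_pi hθ.1 (by linarith [hθ.2])
    have hc : 0 < cos θ := cos_pos_of_mem_Ioo ⟨by linarith [hθ.1], hθ.2⟩
    have hsc : sin θ * cos θ ≠ 0 := (mul_pos hs hc).ne'
    have h1 := ((hasDerivAt_sin θ).fun_mul (hasDerivAt_cos θ)).rpow_const (p := a) (Or.inl hsc)
    have h2 := h1.fun_mul ((hasDerivAt_Q_θ (θ := θ) (D_pos hT)).fun_pow 3)
    refine h2.congr_deriv ?_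
    have e : (sin θ * cos θ) ^ a = wt a θ * (sin θ * cos θ) := by
      unfold wt
      rw [rpow_sub_one hsc]
      field_simp
    have e2 : (sin θ * cos θ) ^ (a - 1) = wt a θ := rfl
    rw [e2, e]
    push_cast
    ring
  · have hi1 := (intI ha.le hT (fun θ => cos θ ^ 2 - sin θ ^ 2) (by fun_prop) 3).const_mul a
    have hi2 := (intI ha.le hT (fun θ => sin θ ^ 2 * cos θ ^ 2) (by fun_prop) 5).const_mul
      (3 * (1 - T ^ 2))
    exact hi1.sub hi2

end Vale.Agent.P224.SM
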