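import Vale.Agent.P224.SM.Ana2

/-!
The coefficient functions of the certificate.
-/

namespace Vale.Agent.P224.SM

open MeasureTheory Set Filter Function Real
open scoped Topology

noncomputable def yF (a c T : ℝ) : ℝ := (1 - T ^ 2) ^ (a - 1) * (c * II a T)

noncomputable def ZF (a c T : ℝ) : ℝ := (1 - T ^ 2) ^ a * (c * Jc a T)

noncomputable def eF (a c T : ℝ) : ℝ := 1 / 2 * (T ^ a * ∫ x in T..1, x ^ (-a) * ZF a c x)

noncomputable def rF (a c T : ℝ) : ℝ :=
  (1 - T ^ 2) ^ (a - 1) * ∫ x in T..1, eF a c x / x * (1 - x ^ 2) ^ (-a)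

variable {a c : ℝ}

lemma kap_pos {T : ℝ} (hT : T ∈ Ico (0 : ℝ) 1) : 0 < 1 - T ^ 2 := by nlinarith [hT.1, hT.2]

lemma hasDerivAt_kap (T : ℝ) : HasDerivAt (fun T : ℝ => 1 - T ^ 2) (-(2 * T)) T := by
  simpa using (hasDerivAt_pow 2 T).const_sub 1

lemma continuous_kap {b : ℝ} (hb : 0 ≤ b) : Continuous (fun T : ℝ => (1 - T ^ 2) ^ b) :=
  (continuous_const.sub (continuous_id.pow 2)).rpow_const fun _ => Or.inr hb

lemma continuous_yF (ha : 2 ≤ a) : Continuous (yF a c) :=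
  (continuous_kap (by linarith)).mul (continuous_const.mul (continuous_II ha))

lemma continuous_ZF (ha : 2 ≤ a) : Continuous (ZF a c) :=
  (continuous_kap (by linarith)).mul (continuous_const.mul (continuous_Jc ha))

/-- ODE for y -/
theorem hasDerivAt_yF (ha : 2 ≤ a) {T : ℝ} (hT : T ∈ Ioo (0 : ℝ) 1) :
    HasDerivAt (yF a c) ((ZF a c T - yF a c T - (2 * a - 3) * T ^ 2 * yF a c T)
      / (T * (1 - T ^ 2))) T := by
  have hk := kap_pos ⟨hT.1.le, hT.2⟩
  have hT0 := hT.1.ne'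
  have h1 := (hasDerivAt_kap T).rpow_const (p := a - 1) (Or.inl hk.ne')
  have h2 := h1.fun_mul ((hasDerivAt_II (a := a) (by linarith) hT.1).const_mul c)
  refine h2.congr_deriv ?_
  have h3 := II_rel (a := a) (by linarith) hT0
  have e1 : (1 - T ^ 2) ^ (a - 1) = (1 - T ^ 2) ^ (a - 1 - 1) * (1 - T ^ 2) := by
    rw [← rpow_add_one hk.ne']; congr 1; ring
  have e2 : (1 - T ^ 2) ^ a = (1 - T ^ 2) ^ (a - 1 - 1) * (1 - T ^ 2) ^ 2 := by
    rw [← rpow_add_natCast hk.ne']; congr 1; push_cast; ring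
  unfold yF ZF
  rw [e1, e2, ← h3]
  field_simp
  ring

/-- ODE for Z -/
theorem hasDerivAt_ZF (ha : 2 ≤ a) {T : ℝ} (hT : T ∈ Ioo (0 : ℝ) 1) :
    HasDerivAt (ZF a c) (2 * a / (2 * T) * (ZF a c T - yF a c T)) T := by
  have hk := kap_pos ⟨hT.1.le, hT.2⟩
  have hT0 := hT.1.ne'
  have h1 := (hasDerivAt_kap T).rpow_const (p := a) (Or.inl hk.ne')
  have h2 := h1.fun_mul ((hasDerivAt_Jc (a := a) (by linarith) hT.1).const_mul c)
  refine h2.congr_deriv ?_
  have h3 := Jc_rel (a := a) (by linarith) hT0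
  have e2 : (1 - T ^ 2) ^ a = (1 - T ^ 2) ^ (a - 1) * (1 - T ^ 2) := by
    rw [← rpow_add_one hk.ne']; congr 1; ring
  unfold yF ZF
  rw [e2]
  field_simp
  linear_combination (-c) * h3

lemma contOn_xZ (ha : 2 ≤ a) : ContinuousOn (fun x => x ^ (-a) * ZF a c x) (Ioi 0) := by
  refine ContinuousOn.mul ?_ (continuous_ZF ha).continuousOn
  exact continuousOn_id.rpow_const fun x hx => Or.inl (show (0 : ℝ) < x from hx).ne'

lemma intble_xZ (ha : 2 ≤ a) {T S : ℝ} (hT : 0 < T) (hTS : T ≤ S) :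
    IntervalIntegrable (fun x => x ^ (-a) * ZF a c x) volume T S := by
  refine ((contOn_xZ ha).mono ?_).intervalIntegrable
  rw [uIcc_of_le hTS]
  exact fun x hx => hT.trans_le hx.1

/-- ODE for e -/
theorem hasDerivAt_eF (ha : 2 ≤ a) {T : ℝ} (hT : T ∈ Ioo (0 : ℝ) 1) :
    HasDerivAt (eF a c) ((2 * a * eF a c T / T - ZF a c T) / 2) T := by
  have hT0 := hT.1.ne'
  have hca : ContinuousAt (fun x => x ^ (-a) * ZF a c x) T :=
    (contOn_xZ ha).continuousAt (Ioi_mem_nhds hT.1)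
  have h1 := intervalIntegral.integral_hasDerivAt_left (intble_xZ (c := c) ha hT.1 hT.2.le)
    ((contOn_xZ ha).stronglyMeasurableAtFilter isOpen_Ioi T hT.1) hca
  have h2 := ((hasDerivAt_rpow_const (x := T) (p := a) (Or.inl hT0)).fun_mul h1).const_mul (1 / 2)
  refine h2.congr_deriv ?_
  unfold eF
  have e1 : T ^ a * T ^ (-a) = 1 := by
    rw [← rpow_add hT.1]; simp
  have e2 : T ^ (a - 1) = T ^ a / T := by rw [rpow_sub_one hT0]
  rw [e2]
  have e3 : T ^ a * -(T ^ (-a) * ZF a c T) = -ZF a c T := by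
    calc T ^ a * -(T ^ (-a) * ZF a c T) = -(T ^ a * T ^ (-a)) * ZF a c T := by ring
      _ = _ := by rw [e1]; ring
  rw [e3]
  field_simp
  ring

lemma yF_nonneg (hc : 0 ≤ c) (ha : 2 ≤ a) {T : ℝ} (hT : T ∈ Ico (0 : ℝ) 1) : 0 ≤ yF a c T :=
  mul_nonneg (rpow_nonneg (kap_pos hT).le _) (mul_nonneg hc (II_pos ha T).le)

lemma ZF_nonneg (hc : 0 ≤ c) {T : ℝ} (hT : T ∈ Icc (0 : ℝ) 1) : 0 ≤ ZF a c T := by
  have : 0 ≤ 1 - T ^ 2 := by nlinarith [hT.1, hT.2]
  exact mul_nonneg (rpow_nonneg this _) (mul_nonneg hc (Jc_nonneg a T))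

lemma eF_nonneg (hc : 0 ≤ c) {T : ℝ} (hT : T ∈ Icc (0 : ℝ) 1) : 0 ≤ eF a c T := by
  unfold eF
  have h1 : 0 ≤ ∫ x in T..1, x ^ (-a) * ZF a c x := by
    refine intervalIntegral.integral_nonneg hT.2 fun x hx => ?_
    exact mul_nonneg (rpow_nonneg (hT.1.trans hx.1) _) (ZF_nonneg hc ⟨hT.1.trans hx.1, hx.2⟩)
  have h2 : 0 ≤ T ^ a := rpow_nonneg hT.1 _
  positivity

lemma rF_nonneg (hc : 0 ≤ c) {T : ℝ} (hT : T ∈ Icc (0 : ℝ) 1) : 0 ≤ rF a c T := by
  unfold rF
  have h0 : ∀ x ∈ Icc (0 : ℝ) 1, (0 : ℝ) ≤ 1 - x ^ 2 := fun x hx => by nlinarith [hx.1, hx.2]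
  have h1 : 0 ≤ ∫ x in T..1, eF a c x / x * (1 - x ^ 2) ^ (-a) := by
    refine intervalIntegral.integral_nonneg hT.2 fun x hx => ?_
    have hx' : x ∈ Icc (0 : ℝ) 1 := ⟨hT.1.trans hx.1, hx.2⟩
    exact mul_nonneg (div_nonneg (eF_nonneg hc hx') hx'.1) (rpow_nonneg (h0 x hx') _)
  have h2 : 0 ≤ (1 - T ^ 2) ^ (a - 1) := rpow_nonneg (h0 T hT) _
  positivity

/-- Z is bounded -/
lemma ZF_le (hc : 0 ≤ c) (ha : 2 ≤ a) {x : ℝ} (hx : x ∈ Icc (0 : ℝ) 1) :
    ZF a c x ≤ c * II a 0 := by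
  rcases eq_or_lt_of_le hx.2 with h | h
  · have e : ZF a c x = 0 := by
      unfold ZF
      rw [h]
      rw [show (1 : ℝ) - 1 ^ 2 = 0 by norm_num, zero_rpow (by linarith), zero_mul]
    rw [e]
    exact mul_nonneg hc (II_pos ha 0).le
  · have hx' : x ∈ Ico (0 : ℝ) 1 := ⟨hx.1, h⟩
    have hk := kap_pos hx'
    have h1 : (1 - x ^ 2) ^ a ≤ 1 := rpow_le_one hk.le (by nlinarith [hx.1]) (by linarith)
    have h2 := Jc_le_II ha hx'
    have h3 := II_anti ha (mem_Ici.2 le_rfl) (mem_Ici.2 hx.1) hx.1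
    have h4 : 0 ≤ c * Jc a x := mul_nonneg hc (Jc_nonneg a x)
    calc ZF a c x ≤ 1 * (c * Jc a x) := mul_le_mul_of_nonneg_right h1 h4
      _ = c * Jc a x := one_mul _
      _ ≤ _ := mul_le_mul_of_nonneg_left (h2.trans h3) hc

/-- bound of e near 0 -/
lemma eF_le1 (hc : 0 ≤ c) (ha : 2 ≤ a) {T : ℝ} (hT : T ∈ Ioo (0 : ℝ) 1) :
    eF a c T ≤ T * (c * II a 0) / (2 * (a - 1)) := by
  have hB : 0 ≤ c * II a 0 := mul_nonneg hc (II_pos ha 0).le
  have h1 : ∫ x in T..1, x ^ (-a) * ZF a c x ≤ ∫ x in T..1, x ^ (-a) * (c * II a 0) := by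
    refine intervalIntegral.integral_mono_on hT.2.le (intble_xZ ha hT.1 hT.2.le) ?_ fun x hx => ?_
    · refine ContinuousOn.intervalIntegrable ?_
      rw [uIcc_of_le hT.2.le]
      exact (continuousOn_id.rpow_const fun x hx =>
        Or.inl (hT.1.trans_le hx.1).ne').mul continuousOn_const
    · exact mul_le_mul_of_nonneg_left (ZF_le hc ha ⟨hT.1.le.trans hx.1, hx.2⟩)
        (rpow_nonneg (hT.1.le.trans hx.1) _)
  rw [intervalIntegral.integral_mul_const, integral_rpow (Or.inr ⟨by linarith, by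
    rw [uIcc_of_le hT.2.le]
    exact fun h => absurd h.1 (not_le.2 hT.1)⟩), one_rpow] at h1
  have h2 : (1 - T ^ (-a + 1)) / (-a + 1) ≤ T ^ (-a + 1) / (a - 1) := by
    rw [show (-a + 1 : ℝ) = -(a - 1) by ring, div_neg, ← neg_div]
    refine (div_le_div_iff_of_pos_right (by linarith)).2 ?_
    linarith
  have h3 : T ^ a * T ^ (-a + 1) = T := by
    rw [← rpow_add hT.1]; simp
  have hTa : 0 ≤ T ^ a := rpow_nonneg hT.1.le _
  unfold eF
  calc 1 / 2 * (T ^ a * ∫ x in T..1, x ^ (-a) * ZF a c x)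
      ≤ 1 / 2 * (T ^ a * ((T ^ (-a + 1) / (a - 1)) * (c * II a 0))) := by
        refine mul_le_mul_of_nonneg_left (mul_le_mul_of_nonneg_left ?_ hTa) (by norm_num)
        exact h1.trans (mul_le_mul_of_nonneg_right h2 hB)
    _ = 1 / 2 * ((T ^ a * T ^ (-a + 1)) * (c * II a 0) / (a - 1)) := by ring
    _ = _ := by
        rw [h3]
        have : a - 1 ≠ 0 := by linarith
        field_simp

/-- the constant -/
noncomputable def BB : ℝ := 93 / 500

/-- the elementary inequality behind the constant -/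
lemma BB_le {x : ℝ} (hx : 0 < x) :
    1 / ((1 + x ^ 2) * √(1 + x ^ 2)) ≤ BB * ((1 + x ^ 2) / x ^ 2) := by
  have h1 : 0 < 1 + x ^ 2 := by positivity
  have h2 : x ^ 2 / (BB * (1 + x ^ 2) ^ 2) ≤ √(1 + x ^ 2) := by
    apply le_sqrt_of_sq_le
    have hB : (0 : ℝ) < BB := by unfold BB; norm_num
    rw [div_pow, div_le_iff₀ (by positivity)]
    set u : ℝ := x ^ 2 with hu
    have hu0 : 0 ≤ u := by positivity
    have e : (1 + u) * (BB * (1 + u) ^ 2) ^ 2 - u ^ 2
        = BB ^ 2 * ((u - 2 / 3) ^ 2 * (u ^ 3 + 19 / 3 * u ^ 2 + 18 * u + 9 / 4))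
          + (BB ^ 2 * (3125 / 108) - 1) * u ^ 2 := by ring
    have h3 : 0 ≤ BB ^ 2 * (3125 / 108) - 1 := by unfold BB; norm_num
    have h4 : 0 ≤ BB ^ 2 * ((u - 2 / 3) ^ 2 * (u ^ 3 + 19 / 3 * u ^ 2 + 18 * u + 9 / 4)) := by
      positivity
    have h5 := mul_nonneg h3 (sq_nonneg u)
    linarith
  have hB : (0 : ℝ) < BB := by unfold BB; norm_num
  have h3 : 0 < √(1 + x ^ 2) := sqrt_pos.2 h1
  rw [div_le_iff₀ (by positivity)] at h2 ⊢
  have e : BB * ((1 + x ^ 2) / x ^ 2) * ((1 + x ^ 2) * √(1 + x ^ 2))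
      = (√(1 + x ^ 2) * (BB * (1 + x ^ 2) ^ 2)) / x ^ 2 := by ring
  rw [e, le_div_iff₀ (by positivity)]
  linarith

/-- the sharp bound of e -/
lemma eF_le2 (hc : 0 ≤ c) (ha : 2 ≤ a) {T : ℝ} (hT : T ∈ Ioo (0 : ℝ) 1) :
    eF a c T ≤ c * IS a T * BB * (1 - T ^ 2) ^ (a + 1) / (2 * (a + 1) * T) := by
  have hI0 := (IS_pos ha T).le
  have hk := kap_pos ⟨hT.1.le, hT.2⟩
  have hB : (0 : ℝ) < BB := by unfold BB; norm_num
  -- the comparison integral
  have hF : ∫ x in T..1, ((1 - x ^ 2) / x) ^ a * (BB * ((1 + x ^ 2) / x ^ 2))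
      = BB * ((1 - T ^ 2) / T) ^ (a + 1) / (a + 1) := by
    have h := intervalIntegral.integral_eq_sub_of_hasDerivAt_of_le (a := T) (b := 1)
      (f := fun x => -(BB * ((1 - x ^ 2) / x) ^ (a + 1) / (a + 1)))
      (f' := fun x => ((1 - x ^ 2) / x) ^ a * (BB * ((1 + x ^ 2) / x ^ 2))) hT.2.le ?_ ?_ ?_
    · rw [h]
      rw [show ((1 : ℝ) - 1 ^ 2) / 1 = 0 by norm_num, zero_rpow (by linarith)]
      ring
    · refine ((continuousOn_const.mul (ContinuousOn.rpow_const ?_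
        fun _ _ => Or.inr (by linarith))).div_const _).neg
      exact ContinuousOn.div (by fun_prop) continuousOn_id fun x hx => (hT.1.trans_le hx.1).ne'
    · intro x hx
      have hx0 : 0 < x := hT.1.trans hx.1
      have hkx : 0 < 1 - x ^ 2 := kap_pos ⟨hx0.le, hx.2⟩
      have h1 := (hasDerivAt_kap x).fun_div (hasDerivAt_id x) hx0.ne'
      have hq : (1 - x ^ 2) / x ≠ 0 := (div_pos hkx hx0).ne'
      have h2 := (((h1.rpow_const (p := a + 1) (Or.inl hq)).const_mul BB).div_const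
        (a + 1)).fun_neg
      refine h2.congr_deriv ?_
      have : a + 1 ≠ 0 := by linarith
      rw [show a + 1 - 1 = a by ring]
      simp only [id]
      field_simp
      ring
    · refine ContinuousOn.intervalIntegrable ?_
      rw [uIcc_of_le hT.2.le]
      refine ContinuousOn.mul ?_ (continuousOn_const.mul ?_)
      · refine ContinuousOn.rpow_const ?_ fun _ _ => Or.inr (by linarith)
        exact ContinuousOn.div (by fun_prop) continuousOn_id fun x hx => (hT.1.trans_le hx.1).ne'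
      · refine ContinuousOn.div (by fun_prop) (by fun_prop) fun x hx => ?_
        have := hT.1.trans_le hx.1
        positivity
  have h1 : ∫ x in T..1, x ^ (-a) * ZF a c x
      ≤ ∫ x in T..1, (c * IS a T) * (((1 - x ^ 2) / x) ^ a * (BB * ((1 + x ^ 2) / x ^ 2))) := by
    refine intervalIntegral.integral_mono_on hT.2.le (intble_xZ ha hT.1 hT.2.le) ?_ fun x hx => ?_
    · refine ContinuousOn.intervalIntegrable ?_
      rw [uIcc_of_le hT.2.le]
      refine continuousOn_const.mul (ContinuousOn.mul ?_ (continuousOn_const.mul ?_))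
      · refine ContinuousOn.rpow_const ?_ fun _ _ => Or.inr (by linarith)
        exact ContinuousOn.div (by fun_prop) continuousOn_id fun x hx => (hT.1.trans_le hx.1).ne'
      · refine ContinuousOn.div (by fun_prop) (by fun_prop) fun x hx => ?_
        have := hT.1.trans_le hx.1
        positivity
    · have hx0 : 0 < x := hT.1.trans_le hx.1
      rcases eq_or_lt_of_le hx.2 with h | h
      · have e1 : (1 - x ^ 2) = 0 := by rw [h]; norm_num
        unfold ZF
        rw [e1, zero_div, zero_rpow (by linarith)]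
        simp
      · have hkx : 0 < 1 - x ^ 2 := kap_pos ⟨hx0.le, h⟩
        have hJ := Jc_le ha ⟨hx0, h⟩
        have hI := IS_anti ha ⟨hT.1.le, hT.2.le⟩ ⟨hx0.le, hx.2⟩ hx.1
        have h3 : 0 < √(1 + x ^ 2) := sqrt_pos.2 (by positivity)
        have hJ2 : Jc a x ≤ IS a T * (BB * ((1 + x ^ 2) / x ^ 2)) := by
          have h5 : Jc a x ≤ IS a x * (1 / ((1 + x ^ 2) * √(1 + x ^ 2))) := by
            have e5 : IS a x * (1 / ((1 + x ^ 2) * √(1 + x ^ 2))) = II a x / (1 + x ^ 2) := by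
              unfold IS
              field_simp
            rw [e5, le_div_iff₀ (by positivity)]
            linarith
          have h6 : IS a x * (1 / ((1 + x ^ 2) * √(1 + x ^ 2)))
              ≤ IS a T * (1 / ((1 + x ^ 2) * √(1 + x ^ 2))) := by gcongr
          have h7 : IS a T * (1 / ((1 + x ^ 2) * √(1 + x ^ 2)))
              ≤ IS a T * (BB * ((1 + x ^ 2) / x ^ 2)) :=
            mul_le_mul_of_nonneg_left (BB_le hx0) hI0
          exact h5.trans (h6.trans h7)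
        unfold ZF
        rw [div_rpow hkx.le hx0.le, rpow_neg hx0.le]
        calc (x ^ a)⁻¹ * ((1 - x ^ 2) ^ a * (c * Jc a x))
            = (1 - x ^ 2) ^ a / x ^ a * c * Jc a x := by ring
          _ ≤ (1 - x ^ 2) ^ a / x ^ a * c * (IS a T * (BB * ((1 + x ^ 2) / x ^ 2))) := by
              refine mul_le_mul_of_nonneg_left hJ2 ?_
              have := rpow_nonneg hkx.le a
              have := rpow_nonneg hx0.le a
              positivity
          _ = _ := by ring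
  rw [intervalIntegral.integral_const_mul, hF] at h1
  have hTa : 0 ≤ T ^ a := rpow_nonneg hT.1.le _
  unfold eF
  calc 1 / 2 * (T ^ a * ∫ x in T..1, x ^ (-a) * ZF a c x)
      ≤ 1 / 2 * (T ^ a * (c * IS a T * (BB * ((1 - T ^ 2) / T) ^ (a + 1) / (a + 1)))) := by
        gcongr
    _ = _ := by
        rw [div_rpow hk.le hT.1.le, rpow_add_one hT.1.ne' a]
        have h5 : T ^ a ≠ 0 := (rpow_pos_of_pos hT.1 _).ne'
        have h6 := hT.1.ne'
        have h7 : a + 1 ≠ 0 := by linarith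
        field_simp

end Vale.Agent.P224.SM
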