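import Vale.Agent.P224.SM.Ana3

/-!
The function r of the certificate.
-/

namespace Vale.Agent.P224.SM

open MeasureTheory Set Filter Function Real
open scoped Topology

variable {a c : ℝ}

/-- the integrand of r -/
noncomputable def hF (a c x : ℝ) : ℝ := eF a c x / x * (1 - x ^ 2) ^ (-a)

lemma contOn_hF (ha : 2 ≤ a) : ContinuousOn (hF a c) (Ioo 0 1) := by
  have h1 : ContinuousOn (eF a c) (Ioo 0 1) := fun x hx =>
    (hasDerivAt_eF ha hx).continuousAt.continuousWithinAt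
  refine (h1.div continuousOn_id fun x hx => hx.1.ne').mul ?_
  exact ContinuousOn.rpow_const (by fun_prop) fun x hx => Or.inl (kap_pos ⟨hx.1.le, hx.2⟩).ne'

lemma hF_nonneg (hc : 0 ≤ c) {x : ℝ} (hx : x ∈ Icc (0 : ℝ) 1) : 0 ≤ hF a c x := by
  have : 0 ≤ 1 - x ^ 2 := by nlinarith [hx.1, hx.2]
  exact mul_nonneg (div_nonneg (eF_nonneg hc hx) hx.1) (rpow_nonneg this _)

/-- sharp bound of the integrand -/
lemma hF_le2 (hc : 0 ≤ c) (ha : 2 ≤ a) {x : ℝ} (hx : x ∈ Ioo (0 : ℝ) 1) :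
    hF a c x ≤ c * IS a x * BB / (2 * (a + 1)) * ((1 - x ^ 2) / x ^ 2) := by
  have hk := kap_pos ⟨hx.1.le, hx.2⟩
  have h1 := eF_le2 hc ha hx
  have h2 : 0 < (1 - x ^ 2) ^ (-a) := rpow_pos_of_pos hk _
  have h3 : (1 - x ^ 2) ^ (a + 1) * (1 - x ^ 2) ^ (-a) = 1 - x ^ 2 := by
    rw [← rpow_add hk]; simp
  have hx0 := hx.1.ne'
  have ha1 : a + 1 ≠ 0 := by linarith
  unfold hF
  calc eF a c x / x * (1 - x ^ 2) ^ (-a)
      ≤ (c * IS a x * BB * (1 - x ^ 2) ^ (a + 1) / (2 * (a + 1) * x)) / x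
          * (1 - x ^ 2) ^ (-a) := by
        gcongr
        exact hx.1.le
    _ = c * IS a x * BB / (2 * (a + 1))
          * (((1 - x ^ 2) ^ (a + 1) * (1 - x ^ 2) ^ (-a)) / x ^ 2) := by
        field_simp
    _ = _ := by rw [h3]

/-- the integrand is bounded -/
lemma hF_bdd (hc : 0 ≤ c) (ha : 2 ≤ a) : ∃ C : ℝ, ∀ x ∈ Ioo (0 : ℝ) 1, |hF a c x| ≤ C := by
  have hI := (II_pos ha 0).le
  have hI' := (IS_pos ha 0).le
  have hB : (0 : ℝ) < BB := by unfold BB; norm_num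
  refine ⟨c * II a 0 / (2 * (a - 1)) * (3 / 4 : ℝ) ^ (-a) + c * IS a 0 * BB / (2 * (a + 1)) * 4, ?_⟩
  intro x hx
  have hx' : x ∈ Icc (0 : ℝ) 1 := ⟨hx.1.le, hx.2.le⟩
  rw [abs_of_nonneg (hF_nonneg hc hx')]
  have p1 : 0 ≤ c * II a 0 / (2 * (a - 1)) * (3 / 4 : ℝ) ^ (-a) :=
    mul_nonneg (div_nonneg (mul_nonneg hc hI) (by linarith)) (rpow_nonneg (by norm_num) _)
  have p2 : 0 ≤ c * IS a 0 * BB / (2 * (a + 1)) * 4 :=
    mul_nonneg (div_nonneg (mul_nonneg (mul_nonneg hc hI') hB.le) (by linarith)) (by norm_num)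
  rcases le_or_gt x (1 / 2) with h | h
  · have h1 := eF_le1 hc ha hx
    have h2 : (1 - x ^ 2) ^ (-a) ≤ (3 / 4 : ℝ) ^ (-a) :=
      rpow_le_rpow_of_nonpos (by norm_num) (by nlinarith [hx.1]) (by linarith)
    have h3 : eF a c x / x ≤ c * II a 0 / (2 * (a - 1)) := by
      rw [div_le_iff₀ hx.1]
      refine h1.trans (le_of_eq ?_)
      ring
    have h4 : 0 ≤ eF a c x / x := div_nonneg (eF_nonneg hc hx') hx.1.le
    have h5 : hF a c x ≤ c * II a 0 / (2 * (a - 1)) * (3 / 4 : ℝ) ^ (-a) :=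
      mul_le_mul h3 h2 (rpow_nonneg (kap_pos ⟨hx.1.le, hx.2⟩).le _) (h4.trans h3)
    linarith
  · have h1 := hF_le2 hc ha hx
    have h2 : IS a x ≤ IS a 0 := IS_anti ha ⟨le_rfl, zero_le_one⟩ hx' hx.1.le
    have h3 : (1 - x ^ 2) / x ^ 2 ≤ 4 := by
      rw [div_le_iff₀ (pow_pos hx.1 2)]
      nlinarith
    have h4 : 0 ≤ (1 - x ^ 2) / x ^ 2 := div_nonneg (kap_pos ⟨hx.1.le, hx.2⟩).le (sq_nonneg x)
    have h5 : c * IS a x * BB / (2 * (a + 1)) ≤ c * IS a 0 * BB / (2 * (a + 1)) := by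
      have : 0 < 2 * (a + 1) := by linarith
      gcongr
    have h6 : c * IS a x * BB / (2 * (a + 1)) * ((1 - x ^ 2) / x ^ 2)
        ≤ c * IS a 0 * BB / (2 * (a + 1)) * 4 :=
      mul_le_mul h5 h3 h4 (div_nonneg (mul_nonneg (mul_nonneg hc hI') hB.le) (by linarith))
    linarith

lemma intOn_hF (hc : 0 ≤ c) (ha : 2 ≤ a) : IntegrableOn (hF a c) (Icc 0 1) volume := by
  obtain ⟨C, hC⟩ := hF_bdd hc ha
  rw [integrableOn_Icc_iff_integrableOn_Ioo]
  haveI : IsFiniteMeasure (volume.restrict (Ioo (0 : ℝ) 1)) :=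
    ⟨by rw [Measure.restrict_apply_univ]; exact measure_Ioo_lt_top⟩
  refine Integrable.of_bound ((contOn_hF ha).aestronglyMeasurable measurableSet_Ioo) C ?_
  refine (ae_restrict_iff' measurableSet_Ioo).2 (Eventually.of_forall fun x hx => ?_)
  exact hC x hx

lemma intble_hF (hc : 0 ≤ c) (ha : 2 ≤ a) {T : ℝ} (hT : T ∈ Icc (0 : ℝ) 1) :
    IntervalIntegrable (hF a c) volume T 1 := by
  rw [intervalIntegrable_iff, uIoc_of_le hT.2]
  exact (intOn_hF hc ha).mono_set fun x hx => ⟨hT.1.trans hx.1.le, hx.2⟩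

/-- ODE for r -/
theorem hasDerivAt_rF (hc : 0 ≤ c) (ha : 2 ≤ a) {T : ℝ} (hT : T ∈ Ioo (0 : ℝ) 1) :
    HasDerivAt (rF a c) (-(eF a c T / T + (2 * a - 2) * T * rF a c T) / (1 - T ^ 2)) T := by
  have hk := kap_pos ⟨hT.1.le, hT.2⟩
  have hT0 := hT.1.ne'
  have h1 := (hasDerivAt_kap T).rpow_const (p := a - 1) (Or.inl hk.ne')
  have hca : ContinuousAt (hF a c) T := (contOn_hF ha).continuousAt (Ioo_mem_nhds hT.1 hT.2)
  have h2 := intervalIntegral.integral_hasDerivAt_left (intble_hF (c := c) hc ha ⟨hT.1.le, hT.2.le⟩)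
    ((contOn_hF ha).stronglyMeasurableAtFilter isOpen_Ioo T hT) hca
  have h3 := h1.fun_mul h2
  refine h3.congr_deriv ?_
  have e1 : (1 - T ^ 2) ^ (a - 1) = (1 - T ^ 2) ^ (a - 1 - 1) * (1 - T ^ 2) := by
    rw [← rpow_add_one hk.ne']; congr 1; ring
  have e2 : (1 - T ^ 2) ^ (a - 1) * hF a c T = eF a c T / T / (1 - T ^ 2) := by
    unfold hF
    have e3 : (1 - T ^ 2) ^ (a - 1) * (1 - T ^ 2) ^ (-a) = (1 - T ^ 2)⁻¹ := by
      rw [← rpow_add hk, ← rpow_neg_one]; congr 1; ring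
    calc (1 - T ^ 2) ^ (a - 1) * (eF a c T / T * (1 - T ^ 2) ^ (-a))
        = eF a c T / T * ((1 - T ^ 2) ^ (a - 1) * (1 - T ^ 2) ^ (-a)) := by ring
      _ = _ := by rw [e3, div_eq_mul_inv (eF a c T / T)]
  have e4 : rF a c T = (1 - T ^ 2) ^ (a - 1 - 1) * (1 - T ^ 2) * ∫ x in T..1, hF a c x := by
    rw [← e1]
    rfl
  rw [mul_neg, e2, e4]
  field_simp
  ring

lemma continuousOn_rF (hc : 0 ≤ c) (ha : 2 ≤ a) : ContinuousOn (rF a c) (Ico 0 1) := by
  have h1 := intervalIntegral.continuousOn_primitive_interval_left (a := 0) (b := 1)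
    (f := hF a c) (μ := volume) (by rw [uIcc_of_le zero_le_one]; exact intOn_hF hc ha)
  rw [uIcc_of_le zero_le_one] at h1
  exact (continuous_kap (by linarith)).continuousOn.mul (h1.mono Ico_subset_Icc_self)

lemma eF_zero (ha : 2 ≤ a) : eF a c 0 = 0 := by
  unfold eF
  rw [zero_rpow (by linarith)]
  ring

lemma continuousOn_eF (hc : 0 ≤ c) (ha : 2 ≤ a) : ContinuousOn (eF a c) (Ico 0 1) := by
  intro T hT
  rcases eq_or_lt_of_le hT.1 with h | h
  · subst h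
    rw [ContinuousWithinAt, eF_zero ha]
    have h1 : Tendsto (fun T : ℝ => T * (c * II a 0) / (2 * (a - 1))) (𝓝[Ico 0 1] 0) (𝓝 0) := by
      have h2 : Continuous (fun T : ℝ => T * (c * II a 0) / (2 * (a - 1))) := by fun_prop
      have h3 := (h2.tendsto 0).mono_left (nhdsWithin_le_nhds (s := Ico (0 : ℝ) 1))
      simpa using h3
    refine squeeze_zero' ?_ ?_ h1
    · filter_upwards [self_mem_nhdsWithin] with T hT
      exact eF_nonneg hc ⟨hT.1, hT.2.le⟩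
    · filter_upwards [self_mem_nhdsWithin] with T hT
      rcases eq_or_lt_of_le hT.1 with h | h
      · rw [← h, eF_zero ha]
        simp
      · exact eF_le1 hc ha ⟨h, hT.2⟩
  · exact (hasDerivAt_eF ha ⟨h, hT.2⟩).continuousAt.continuousWithinAt

/-- the sharp bound of r -/
lemma rF_le (hc : 0 ≤ c) (ha : 2 ≤ a) {T : ℝ} (hT : T ∈ Ioo (0 : ℝ) 1) :
    rF a c T ≤ yF a c T * (BB * √(1 + T ^ 2) * (1 - T) ^ 2 / (2 * (a + 1) * T)) := by
  have hk := kap_pos ⟨hT.1.le, hT.2⟩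
  have hB : (0 : ℝ) < BB := by unfold BB; norm_num
  have hI := (IS_pos ha T).le
  have hF2 : ∫ x in T..1, c * IS a T * BB / (2 * (a + 1)) * ((1 - x ^ 2) / x ^ 2)
      = c * IS a T * BB / (2 * (a + 1)) * ((1 - T) ^ 2 / T) := by
    rw [intervalIntegral.integral_const_mul]
    congr 1
    have h := intervalIntegral.integral_eq_sub_of_hasDerivAt (a := T) (b := 1)
      (f := fun x => -(x⁻¹) - x) (f' := fun x => (1 - x ^ 2) / x ^ 2) ?_ ?_
    · rw [h]
      have := hT.1.ne'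
      field_simp
      ring
    · intro x hx
      rw [uIcc_of_le hT.2.le] at hx
      have hx0 : 0 < x := hT.1.trans_le hx.1
      have h1 := ((hasDerivAt_inv hx0.ne').fun_neg).fun_sub (hasDerivAt_id x)
      refine h1.congr_deriv ?_
      field_simp
    · refine ContinuousOn.intervalIntegrable ?_
      rw [uIcc_of_le hT.2.le]
      refine ContinuousOn.div (by fun_prop) (by fun_prop) fun x hx => ?_
      exact (pow_pos (hT.1.trans_le hx.1) 2).ne'
  have h1 : ∫ x in T..1, hF a c x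
      ≤ ∫ x in T..1, c * IS a T * BB / (2 * (a + 1)) * ((1 - x ^ 2) / x ^ 2) := by
    refine intervalIntegral.integral_mono_on hT.2.le (intble_hF hc ha ⟨hT.1.le, hT.2.le⟩) ?_
      fun x hx => ?_
    · refine ContinuousOn.intervalIntegrable ?_
      rw [uIcc_of_le hT.2.le]
      refine continuousOn_const.mul (ContinuousOn.div (by fun_prop) (by fun_prop) fun x hx => ?_)
      exact (pow_pos (hT.1.trans_le hx.1) 2).ne'
    · have hx0 : 0 < x := hT.1.trans_le hx.1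
      rcases eq_or_lt_of_le hx.2 with h | h
      · have e1 : (1 - x ^ 2) = 0 := by rw [h]; norm_num
        unfold hF
        rw [e1, zero_rpow (by linarith)]
        simp
      · have h2 := hF_le2 hc ha (x := x) ⟨hx0, h⟩
        have h3 : IS a x ≤ IS a T := IS_anti ha ⟨hT.1.le, hT.2.le⟩ ⟨hx0.le, hx.2⟩ hx.1
        have h4 : 0 ≤ (1 - x ^ 2) / x ^ 2 := div_nonneg (kap_pos ⟨hx0.le, h⟩).le (sq_nonneg x)
        have h5 : c * IS a x * BB / (2 * (a + 1)) ≤ c * IS a T * BB / (2 * (a + 1)) := by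
          have : 0 < 2 * (a + 1) := by linarith
          gcongr
        exact h2.trans (mul_le_mul_of_nonneg_right h5 h4)
  rw [hF2] at h1
  have h6 : 0 ≤ (1 - T ^ 2) ^ (a - 1) := rpow_nonneg hk.le _
  have e : rF a c T = (1 - T ^ 2) ^ (a - 1) * ∫ x in T..1, hF a c x := rfl
  rw [e]
  calc (1 - T ^ 2) ^ (a - 1) * ∫ x in T..1, hF a c x
      ≤ (1 - T ^ 2) ^ (a - 1) * (c * IS a T * BB / (2 * (a + 1)) * ((1 - T) ^ 2 / T)) :=
        mul_le_mul_of_nonneg_left h1 h6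
    _ = _ := by
        unfold yF IS
        have := hT.1.ne'
        have : a + 1 ≠ 0 := by linarith
        field_simp

end Vale.Agent.P224.SM
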