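import Vale.Agent.P224.Bdl.B2
import Vale.Agent.P224.SM.Anti

/-!
The limit of the two point functional at the diagonal.
-/

namespace Vale.Agent.P224.SM

open MeasureTheory Set Filter Function Real
open scoped Topology RealInnerProductSpace

set_option linter.unusedSectionVars false

/-- behaviour of the coefficients at T = 1 -/
structure CertLim (m : ℕ) (y Z e r : ℝ → ℝ) (lam : ℝ) : Prop where
  ly : Tendsto (fun φ => y (sin φ) / cos φ ^ (m - 2)) (𝓝[<] (π / 2)) (𝓝 lam)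
  le : Tendsto (fun φ => e (sin φ) / cos φ ^ m) (𝓝[<] (π / 2)) (𝓝 0)
  lZ : ∃ C : ℝ, ∀ᶠ φ in 𝓝[<] (π / 2), |Z (sin φ) / cos φ ^ m| ≤ C
  lr : Tendsto (fun φ => r (sin φ) / (cos φ ^ (m - 2) * (1 - sin φ))) (𝓝[<] (π / 2)) (𝓝 0)

lemma aux_sigma {T s : ℝ} (hT : 0 < T) (hT1 : T < 1) (hs1 : s ≤ 1) :
    1 - s ^ 2 ≤ 2 * (1 - T * s) := by
  rcases le_or_gt 0 s with h | h
  · nlinarith [mul_nonneg h (sub_nonneg.2 hT1.le), mul_nonneg (sub_nonneg.2 hs1) h]
  · nlinarith [mul_pos hT (neg_pos.2 h), sq_nonneg s]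

lemma aux_le_mul {a b x : ℝ} (h : a ≤ b) (hx : 0 ≤ x) {m : ℝ} (hm : 0 ≤ m) :
    m * (m + 1) * a * x ≤ m * (m + 1) * b * x :=
  mul_le_mul_of_nonneg_right (mul_le_mul_of_nonneg_left h (by positivity)) hx

/-- lower bound of the integrand near the diagonal -/
lemma gI_lower {m T y Z e r s t p c v k a b f ρ : ℝ} (hm : 0 ≤ m) (hT : 0 < T) (hT1 : T < 1)
    {Q : ℝ}
    (hr : 0 ≤ r) (he0 : 0 ≤ e) (hv : 1 - T ≤ v) (hvs : v = 1 - T * s) (hQ : 0 ≤ Q)
    (h1 : s ^ 2 + t ^ 2 ≤ 1) (h2 : s ^ 2 + p ^ 2 ≤ 1) (hc : |c| ≤ 1)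
    (ha : a * k = (1 - T ^ 2) * y * Q)
    (hb : b * k = ((1 - T ^ 2) * y - 2 * Z) / (m - 1) * Q)
    (hf : f * k = e * Q)
    (hρ : ρ * k = (1 - T ^ 2) * r * Q) (hk : 0 ≤ k) :
    a * k + (T * a) * (c * k) - |b| * (v * k) - 4 * f * k
        - m * ρ * k - 4 * m * (m + 1) * (ρ / (1 - T)) * k
      ≤ gI m T y Z e r s t p c (Q * v) Q (Q / v) (Q / v ^ 2) := by
  have h1T : 0 < 1 - T := by linarith
  have hv0 : 0 < v := lt_of_lt_of_le h1T hv
  have hsb : |s| ≤ 1 := abs_le_one_iff_mul_self_le_one.2 (by nlinarith [sq_nonneg t] : s * s ≤ 1)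
  have hs1 : s ≤ 1 := (abs_le.1 hsb).2
  have hk2 : 0 ≤ 1 - T ^ 2 := by
    have : T ^ 2 ≤ 1 := pow_le_one₀ hT.le hT1.le
    linarith
  have hσ : 1 - s ^ 2 ≤ 2 * v := by
    rw [hvs]
    exact aux_sigma hT hT1 hs1
  have hσ2 : (p ^ 2 + t ^ 2) / 2 ≤ 2 * v := by linarith
  have hpt : |p * t| ≤ 2 * v := by
    refine le_trans ?_ hσ2
    have h3 := sq_nonneg (p + t)
    have h4 := sq_nonneg (p - t)
    rw [abs_le]
    constructor
    · linarith
    · linarith
  set B : ℝ := (1 - T ^ 2) * r * Q with hB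
  have hB0 : 0 ≤ B := by positivity
  have hBv : B / v ≤ B / (1 - T) := div_le_div_of_nonneg_left hB0 h1T hv
  have hBv2 : 0 ≤ B / v ^ 2 := by positivity
  have e7 : m * (m + 1) * (2 * v) * (B / v ^ 2) = 2 * m * (m + 1) * (B / v) := by field_simp
  have e1 : m * (m + 1) * T ^ 2 * (1 - T ^ 2) * r * c * (p * t) * (Q / v ^ 2)
      ≤ 2 * m * (m + 1) * (B / v) := by
    have e2 : m * (m + 1) * T ^ 2 * (1 - T ^ 2) * r * c * (p * t) * (Q / v ^ 2)
        = m * (m + 1) * (T ^ 2 * (c * (p * t))) * (B / v ^ 2) := by rw [hB]; ring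
    have e3 : T ^ 2 * (c * (p * t)) ≤ 2 * v := by
      have h3 : |c * (p * t)| ≤ 1 * (2 * v) := by
        rw [abs_mul]
        exact mul_le_mul hc hpt (abs_nonneg _) zero_le_one
      have h4 := le_abs_self (c * (p * t))
      have h5 : T ^ 2 ≤ 1 := pow_le_one₀ hT.le hT1.le
      have h6 : T ^ 2 * (c * (p * t)) ≤ T ^ 2 * (2 * v) :=
        mul_le_mul_of_nonneg_left (by linarith) (by positivity)
      have h7 : T ^ 2 * (2 * v) ≤ 1 * (2 * v) := mul_le_mul_of_nonneg_right h5 (by positivity)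
      linarith
    rw [e2, ← e7]
    exact aux_le_mul e3 hBv2 hm
  have e4 : -(2 * m * (m + 1) * (B / v)) ≤
      m * T * (1 - T ^ 2) * r * ((p ^ 2 + t ^ 2) / 2) * (Q / v - (m + 1) * (Q / v ^ 2)) := by
    have e5 : m * T * (1 - T ^ 2) * r * ((p ^ 2 + t ^ 2) / 2) * (Q / v - (m + 1) * (Q / v ^ 2))
        = m * T * ((p ^ 2 + t ^ 2) / 2) * (B / v)
          - m * (m + 1) * (T * ((p ^ 2 + t ^ 2) / 2)) * (B / v ^ 2) := by rw [hB]; ring
    have e6 : m * (m + 1) * (T * ((p ^ 2 + t ^ 2) / 2)) * (B / v ^ 2)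
        ≤ m * (m + 1) * (2 * v) * (B / v ^ 2) := by
      refine aux_le_mul ?_ hBv2 hm
      have h7 : T * ((p ^ 2 + t ^ 2) / 2) ≤ 1 * ((p ^ 2 + t ^ 2) / 2) :=
        mul_le_mul_of_nonneg_right hT1.le (by positivity)
      linarith
    have e8 : 0 ≤ m * T * ((p ^ 2 + t ^ 2) / 2) * (B / v) := by positivity
    rw [e5]
    linarith
  have e9 : 4 * m * (m + 1) * (ρ / (1 - T)) * k = 4 * m * (m + 1) * (B / (1 - T)) := by
    rw [← hρ]; ring
  have e10 : 4 * m * (m + 1) * (B / v) ≤ 4 * m * (m + 1) * (B / (1 - T)) :=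
    mul_le_mul_of_nonneg_left hBv (by positivity)
  have e11 : -(|b| * (v * k)) ≤ ((1 - T ^ 2) * y - 2 * Z) / (m - 1) * (Q * v) := by
    have : ((1 - T ^ 2) * y - 2 * Z) / (m - 1) * (Q * v) = b * (v * k) := by
      calc _ = (((1 - T ^ 2) * y - 2 * Z) / (m - 1) * Q) * v := by ring
        _ = (b * k) * v := by rw [hb]
        _ = _ := by ring
    rw [this]
    have h8 := neg_abs_le b
    have h9 : -|b| * (v * k) ≤ b * (v * k) := mul_le_mul_of_nonneg_right h8 (by positivity)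
    linarith
  have e12 : (T * a) * (c * k) - m * ρ * k ≤ c * ((1 - T ^ 2) * (T * y + m * r)) * Q := by
    have e13 : c * ((1 - T ^ 2) * (T * y + m * r)) * Q = (T * a) * (c * k) + c * (m * B) := by
      calc c * ((1 - T ^ 2) * (T * y + m * r)) * Q
          = T * c * ((1 - T ^ 2) * y * Q) + c * (m * ((1 - T ^ 2) * r * Q)) := by ring
        _ = T * c * (a * k) + c * (m * B) := by rw [ha]
        _ = _ := by ring
    have e14 : -(m * B) ≤ c * (m * B) := by
      have := mul_le_mul_of_nonneg_right (abs_le.1 hc).1 (by positivity : 0 ≤ m * B)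
      linarith
    have e15 : m * ρ * k = m * B := by rw [← hρ]; ring
    rw [e13, e15]
    linarith
  have e16 : -(4 * f * k) ≤ 2 * e * (c - s) * Q := by
    have e17 : -2 ≤ c - s := by linarith [(abs_le.1 hc).1]
    have e18 := mul_le_mul_of_nonneg_right e17 (by positivity : 0 ≤ 2 * (e * Q))
    have e19 : 4 * f * k = 4 * (e * Q) := by rw [← hf]; ring
    rw [e19]
    linarith
  rw [e9, ha]
  unfold gI
  linarith

section

variable {X : Type*} [MeasurableSpace X] {E : Type*} [NormedAddCommGroup E]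
  [InnerProductSpace ℝ E] [MeasurableSpace E] [BorelSpace E] [SecondCountableTopology E]
  {μ : Measure X} [IsFiniteMeasure μ] {m : ℕ} {p n : X → E} {y Z e r : ℝ → ℝ}

lemma integral_comb3 {Y : Type*} [MeasurableSpace Y] {ν : Measure Y} {f1 f2 f3 : Y → ℝ}
    (i1 : Integrable f1 ν) (i2 : Integrable f2 ν) (i3 : Integrable f3 ν) (a1 a2 a3 : ℝ) :
    Integrable (fun x => a1 * f1 x + a2 * f2 x + a3 * f3 x) ν ∧
    ∫ x, (a1 * f1 x + a2 * f2 x + a3 * f3 x) ∂ν
      = a1 * ∫ x, f1 x ∂ν + a2 * ∫ x, f2 x ∂ν + a3 * ∫ x, f3 x ∂ν := by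
  have j1 : Integrable (fun x => a1 * f1 x) ν := i1.const_mul _
  have j2 : Integrable (fun x => a2 * f2 x) ν := i2.const_mul _
  have j3 : Integrable (fun x => a3 * f3 x) ν := i3.const_mul _
  have j12 : Integrable (fun x => a1 * f1 x + a2 * f2 x) ν := j1.add j2
  refine ⟨j12.add j3, ?_⟩
  rw [integral_add j12 j3, integral_add j1 j2, integral_const_mul, integral_const_mul,
    integral_const_mul]

lemma cf_ker (φ s : ℝ) (m : ℕ) : FV.cf φ s ^ m = cos φ ^ m * ker (sin φ) m s := by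
  unfold FV.cf ker
  rw [div_pow, div_eq_mul_inv, mul_comm s]

open FV in
/-- integrated lower bound -/
theorem Two.lower (h : Two μ m p n) (hc : Cert m y Z e r) (hm : 2 ≤ m) {φ : ℝ}
    (hφ : φ ∈ Ioo 0 (π / 2)) {a b f ρ : ℝ}
    (ha : a = (1 - sin φ ^ 2) * y (sin φ) / cos φ ^ m)
    (hb : b = ((1 - sin φ ^ 2) * y (sin φ) - 2 * Z (sin φ)) / (m - 1) / cos φ ^ m)
    (hf : f = e (sin φ) / cos φ ^ m)
    (hρ : ρ = (1 - sin φ ^ 2) * r (sin φ) / cos φ ^ m) :
    (a + sin φ * a) * JJ μ m p φ - sin φ * a * (JJ μ m p φ - BB μ m p n φ)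
      - |b| * ((1 - sin φ) * JJ μ m p φ + sin φ * (JJ μ m p φ - BB μ m p p φ))
      - (4 * f + m * ρ + 4 * m * (m + 1) * (ρ / (1 - sin φ))) * JJ μ m p φ
      ≤ GG μ m p n y Z e r (sin φ) := by
  have hpi := pi_pos
  have hφI : φ ∈ Ioo (-(π / 2)) (π / 2) := ⟨by linarith [hφ.1], hφ.2⟩
  have hcos := cos_pos_of_mem_Ioo hφI
  have hsin0 : 0 < sin φ := sin_pos_of_pos_of_lt_pi hφ.1 (by linarith [hφ.2])
  have hsin1 : sin φ < 1 := (abs_lt.1 (abs_sin_lt_one hφI)).2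
  have hT : sin φ ∈ Ioo (0 : ℝ) 1 := ⟨hsin0, hsin1⟩
  have hT' : sin φ ∈ Ico (0 : ℝ) 1 := ⟨hsin0.le, hsin1⟩
  have hk0 : cos φ ^ m ≠ 0 := (pow_pos hcos m).ne'
  have ck := contOn_ker' hT' m
  have mk := measurable_ker (sin φ) m
  have i1 : Integrable (fun q => cos φ ^ m * ker (sin φ) m (pr p n q).1) (μ.prod μ) :=
    integrable_param (μ.prod μ) h.measurable_pr isCompact_KK h.pr_mem
      (f := fun k => cos φ ^ m * ker (sin φ) m k.1) (by fun_prop) (continuousOn_const.mul ck)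
  have i2 : Integrable (fun q => (pr p n q).2.2.2 * (cos φ ^ m * ker (sin φ) m (pr p n q).1))
      (μ.prod μ) :=
    integrable_param (μ.prod μ) h.measurable_pr isCompact_KK h.pr_mem
      (f := fun k => k.2.2.2 * (cos φ ^ m * ker (sin φ) m k.1)) (by fun_prop)
      (ContinuousOn.mul (by fun_prop) (continuousOn_const.mul ck))
  have i3 : Integrable (fun q => (pr p n q).1 * (cos φ ^ m * ker (sin φ) m (pr p n q).1))
      (μ.prod μ) :=
    integrable_param (μ.prod μ) h.measurable_pr isCompact_KK h.pr_mem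
      (f := fun k => k.1 * (cos φ ^ m * ker (sin φ) m k.1)) (by fun_prop)
      (ContinuousOn.mul (by fun_prop) (continuousOn_const.mul ck))
  have iG : Integrable (fun q => gK m y Z e r (sin φ) (pr p n q)) (μ.prod μ) :=
    integrable_param (μ.prod μ) h.measurable_pr isCompact_KK h.pr_mem (measurable_gK _)
      (contOn_slice hc.contOn_gK hT')
  have eJ : JJ μ m p φ = ∫ q, cos φ ^ m * ker (sin φ) m (pr p n q).1 ∂(μ.prod μ) := by
    unfold JJ
    simp only [cf_ker]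
    rfl
  have eB : BB μ m p n φ = ∫ q, (pr p n q).2.2.2 * (cos φ ^ m * ker (sin φ) m (pr p n q).1)
      ∂(μ.prod μ) := by
    unfold BB
    simp only [cf_ker]
    rfl
  have eP : BB μ m p p φ = ∫ q, (pr p n q).1 * (cos φ ^ m * ker (sin φ) m (pr p n q).1)
      ∂(μ.prod μ) := by
    unfold BB
    simp only [cf_ker]
    rfl
  set η : ℝ := 4 * f + m * ρ + 4 * m * (m + 1) * (ρ / (1 - sin φ)) with hη
  have hpt : ∀ q, (a - |b| - η) * (cos φ ^ m * ker (sin φ) m (pr p n q).1)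
      + (sin φ * a) * ((pr p n q).2.2.2 * (cos φ ^ m * ker (sin φ) m (pr p n q).1))
      + (|b| * sin φ) * ((pr p n q).1 * (cos φ ^ m * ker (sin φ) m (pr p n q).1))
      ≤ gK m y Z e r (sin φ) (pr p n q) := by
    intro q
    have hv := one_sub_pos' hT' (h.pr_mem q).1.2
    have h0 : ker (sin φ) (m - 1) (pr p n q).1
        = ker (sin φ) m (pr p n q).1 * (1 - sin φ * (pr p n q).1) := by
      have h1 := ker_succ_div (sin φ) (pr p n q).1 (m - 1) 1
      rw [Nat.sub_add_cancel (by omega)] at h1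
      rw [h1, pow_one, div_mul_cancel₀ _ hv.ne']
    have h1 := ker_succ_div (sin φ) (pr p n q).1 m 1
    have h2 := ker_succ_div (sin φ) (pr p n q).1 m 2
    rw [pow_one] at h1
    have hQ : 0 ≤ ker (sin φ) m (pr p n q).1 := inv_nonneg.2 (pow_nonneg hv.le _)
    have hlow := gI_lower (m := (m : ℝ)) (T := sin φ) (y := y (sin φ)) (Z := Z (sin φ))
      (e := e (sin φ)) (r := r (sin φ)) (s := (pr p n q).1) (t := (pr p n q).2.1)
      (p := (pr p n q).2.2.1) (c := (pr p n q).2.2.2) (v := 1 - sin φ * (pr p n q).1)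
      (Q := ker (sin φ) m (pr p n q).1) (k := cos φ ^ m * ker (sin φ) m (pr p n q).1)
      (a := a) (b := b) (f := f) (ρ := ρ)
      (Nat.cast_nonneg m) hsin0 hsin1 (hc.r0 _ hT) (hc.e0 _ hT) ?_ rfl hQ ?_ ?_ ?_ ?_ ?_ ?_ ?_ ?_
    · unfold gK
      rw [h0, h1, h2]
      refine le_trans (le_of_eq ?_) hlow
      rw [hη]
      ring
    · have := (h.pr_mem q).1.2
      have h4 : sin φ * (pr p n q).1 ≤ sin φ * 1 := mul_le_mul_of_nonneg_left this hsin0.le
      linarith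
    · exact bessel (h.np _) (h.np _) (h.nn _) (h.pn _)
    · have h5 := bessel (a := p q.2) (h.np _) (h.np q.1) (h.nn q.1) (h.pn _)
      rw [real_inner_comm, real_inner_comm (n q.1)] at h5
      exact h5
    · exact abs_le.2 (h.pr_mem q).2.2.2
    · rw [ha]; field_simp
    · rw [hb]; field_simp
    · rw [hf]; field_simp
    · rw [hρ]; field_simp
    · positivity
  obtain ⟨j, e5⟩ := integral_comb3 i1 i2 i3 (a - |b| - η) (sin φ * a) (|b| * sin φ)
  have hint := integral_mono j iG hpt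
  rw [e5, ← eJ, ← eB, ← eP] at hint
  have e6 : GG μ m p n y Z e r (sin φ) = ∫ q, gK m y Z e r (sin φ) (pr p n q) ∂(μ.prod μ) := rfl
  rw [e6]
  refine le_trans (le_of_eq ?_) hint
  ring

end

end Vale.Agent.P224.SM
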