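import Vale.Agent.P224.SM.Ana4
import Vale.Agent.P224.SM.Lim

/-!
The certificate in dimensions 4 to 12.
-/

namespace Vale.Agent.P224.SM

open MeasureTheory Set Filter Function Real
open scoped Topology

/-- the one variable inequality -/
lemma quintic_nonneg {m : ℕ} (h4 : 4 ≤ m) (h12 : m ≤ 12) {T : ℝ} (h0 : 0 ≤ T) :
    (m : ℝ) * (m + 1) * T ^ 2 * (1 - T) * (2.21 + T ^ 2)
      ≤ 2.2 / BB * (m + 2) * T ^ 2 + m * (1 - T) ^ 2 * (2.21 + T ^ 2) := by
  have hB : (2.2 : ℝ) / BB = 1100 / 93 := by unfold BB; norm_num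
  rw [hB]
  have a0 := sq_nonneg (T - 0.46)
  have a1 := mul_nonneg h0 (sq_nonneg (T - 0.46))
  have a2 := mul_nonneg (mul_nonneg h0 h0) (sq_nonneg (T - 0.46))
  have a3 := mul_nonneg (mul_nonneg (mul_nonneg h0 h0) h0) (sq_nonneg (T - 0.46))
  have b0 := sq_nonneg (T - 0.6)
  have b1 := mul_nonneg h0 (sq_nonneg (T - 0.6))
  have b2 := mul_nonneg (mul_nonneg h0 h0) (sq_nonneg (T - 0.6))
  have b3 := mul_nonneg (mul_nonneg (mul_nonneg h0 h0) h0) (sq_nonneg (T - 0.6))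
  have d2 := mul_nonneg h0 h0
  have d3 := mul_nonneg (mul_nonneg h0 h0) h0
  interval_cases m <;> push_cast <;> nlinarith

lemma root_le (T : ℝ) : √(1 + T ^ 2) ≤ (2.21 + T ^ 2) / 2.2 := by
  have h1 : √(1 + T ^ 2) ^ 2 = 1 + T ^ 2 := sq_sqrt (by positivity)
  rw [le_div_iff₀ (by norm_num)]
  nlinarith [sq_nonneg (√(1 + T ^ 2) - 1.1)]

variable {m : ℕ} {c : ℝ}

/-- the certificate -/
theorem certF (h4 : 4 ≤ m) (h12 : m ≤ 12) (hc : 0 ≤ c) :
    Cert m (yF (m / 2) c) (ZF (m / 2) c) (eF (m / 2) c) (rF (m / 2) c) := by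
  have hm4 : (4 : ℝ) ≤ m := by exact_mod_cast h4
  have ha : (2 : ℝ) ≤ (m : ℝ) / 2 := by linarith
  refine ⟨(continuous_yF ha).continuousOn, (continuous_ZF ha).continuousOn,
    continuousOn_eF hc ha, continuousOn_rF hc ha, ?_, ?_, ?_, ?_, ?_, ?_, ?_, ?_⟩
  · intro T hT
    refine (hasDerivAt_yF ha hT).congr_deriv ?_
    rw [show 2 * ((m : ℝ) / 2) - 3 = m - 3 by ring]
  · intro T hT
    refine (hasDerivAt_ZF ha hT).congr_deriv ?_
    rw [show 2 * ((m : ℝ) / 2) = m by ring]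
  · intro T hT
    refine (hasDerivAt_eF ha hT).congr_deriv ?_
    rw [show 2 * ((m : ℝ) / 2) = m by ring]
  · intro T hT
    refine (hasDerivAt_rF hc ha hT).congr_deriv ?_
    rw [show 2 * ((m : ℝ) / 2) = m by ring]
  · exact fun T hT => eF_nonneg hc ⟨hT.1.le, hT.2.le⟩
  · exact fun T hT => rF_nonneg hc ⟨hT.1.le, hT.2.le⟩
  · exact fun T hT => yF_nonneg hc ha ⟨hT.1.le, hT.2⟩
  · intro T hT
    have hr := rF_le hc ha hT
    have hr0 := rF_nonneg (a := (m : ℝ) / 2) hc (T := T) ⟨hT.1.le, hT.2.le⟩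
    have hy0 := yF_nonneg (a := (m : ℝ) / 2) hc ha (T := T) ⟨hT.1.le, hT.2⟩
    set r := rF ((m : ℝ) / 2) c T with hrdef
    set y := yF ((m : ℝ) / 2) c T with hydef
    have h1T : 0 < 1 - T := by linarith [hT.2]
    have hT0 := hT.1
    have hB : (0 : ℝ) < BB := by unfold BB; norm_num
    have hq := quintic_nonneg h4 h12 hT.1.le
    have hroot := root_le T
    set P : ℝ := 2.21 + T ^ 2 with hP
    have hP0 : 0 < P := by positivity
    -- the bound of r with the polynomial in place of the root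
    have h1 : 2.2 / BB * ((m : ℝ) + 2) * T ^ 2 * r ≤ T * y * (1 - T) ^ 2 * P := by
      have h2 : y * (BB * √(1 + T ^ 2) * (1 - T) ^ 2 / (2 * ((m : ℝ) / 2 + 1) * T))
          ≤ y * (BB * (P / 2.2) * (1 - T) ^ 2 / (2 * ((m : ℝ) / 2 + 1) * T)) := by gcongr
      have h3 := mul_le_mul_of_nonneg_left (hr.trans h2)
        (by positivity : 0 ≤ 2.2 / BB * ((m : ℝ) + 2) * T ^ 2)
      refine h3.trans (le_of_eq ?_)
      field_simp
    have h5 : (1 - T) * P * ((m : ℝ) * ((m : ℝ) + 1) * T ^ 2 * r)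
        ≤ (1 - T) * P * ((1 - T) * (T * y + m * r)) := by
      have h6 := mul_le_mul_of_nonneg_right hq hr0
      nlinarith
    exact le_of_mul_le_mul_left h5 (by positivity)

lemma kap_cos {φ : ℝ} (hφ : φ ∈ Ioo 0 (π / 2)) (hm : 2 ≤ m) :
    (1 - sin φ ^ 2) ^ ((m : ℝ) / 2 - 1) = cos φ ^ (m - 2) := by
  have hc : 0 < cos φ := cos_pos_of_mem_Ioo ⟨by linarith [hφ.1, pi_pos], hφ.2⟩
  have e1 : 1 - sin φ ^ 2 = cos φ ^ (2 : ℝ) := by
    rw [rpow_two]
    have := sin_sq_add_cos_sq φ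
    linarith
  rw [e1, ← rpow_mul hc.le, ← rpow_natCast, Nat.cast_sub hm]
  congr 1
  push_cast
  ring

lemma kap_cos' {φ : ℝ} (hφ : φ ∈ Ioo 0 (π / 2)) :
    (1 - sin φ ^ 2) ^ ((m : ℝ) / 2) = cos φ ^ m := by
  have hc : 0 < cos φ := cos_pos_of_mem_Ioo ⟨by linarith [hφ.1, pi_pos], hφ.2⟩
  have e1 : 1 - sin φ ^ 2 = cos φ ^ (2 : ℝ) := by
    rw [rpow_two]
    have := sin_sq_add_cos_sq φ
    linarith
  rw [e1, ← rpow_mul hc.le, ← rpow_natCast]
  congr 1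
  ring

/-- the limits of the certificate -/
theorem certLimF (h4 : 4 ≤ m) (hc : 0 ≤ c) :
    CertLim m (yF (m / 2) c) (ZF (m / 2) c) (eF (m / 2) c) (rF (m / 2) c)
      (c * II (m / 2) 1) := by
  have hm4 : (4 : ℝ) ≤ m := by exact_mod_cast h4
  have ha : (2 : ℝ) ≤ (m : ℝ) / 2 := by linarith
  have hpi := pi_pos
  set F := 𝓝[<] (π / 2) with hF
  have h0 : ∀ᶠ φ in F, φ ∈ Ioo 0 (π / 2) := Ioo_mem_nhdsLT (by positivity)
  have hsin : Tendsto (fun φ => sin φ) F (𝓝 1) := by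
    have := (continuous_sin.tendsto (π / 2)).mono_left (nhdsWithin_le_nhds (s := Iio (π / 2)))
    rwa [sin_pi_div_two] at this
  have hII : Tendsto (fun φ => II (m / 2) (sin φ)) F (𝓝 (II (m / 2) 1)) :=
    ((continuous_II ha).tendsto 1).comp hsin
  have hIS : Tendsto (fun φ => IS (m / 2) (sin φ)) F (𝓝 (IS (m / 2) 1)) :=
    ((continuous_IS ha).tendsto 1).comp hsin
  have hmem : ∀ φ ∈ Ioo 0 (π / 2), sin φ ∈ Ioo (0 : ℝ) 1 ∧ 0 < cos φ := by
    intro φ hφ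
    have hc : 0 < cos φ := cos_pos_of_mem_Ioo ⟨by linarith [hφ.1], hφ.2⟩
    have hs : 0 < sin φ := sin_pos_of_pos_of_lt_pi hφ.1 (by linarith [hφ.2])
    refine ⟨⟨hs, ?_⟩, hc⟩
    nlinarith [sin_sq_add_cos_sq φ, sin_le_one φ]
  refine ⟨?_, ?_, ⟨c * II (m / 2) 0, ?_⟩, ?_⟩
  · refine (hII.const_mul c).congr' ?_
    filter_upwards [h0] with φ hφ
    obtain ⟨hs, hcos⟩ := hmem φ hφ
    unfold yF
    rw [kap_cos hφ (by omega)]
    field_simp
  · have hlim : Tendsto (fun φ => c * IS (m / 2) (sin φ) * BB * (1 - sin φ ^ 2)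
        / (2 * ((m : ℝ) / 2 + 1) * sin φ)) F (𝓝 0) := by
      have h1 : Tendsto (fun φ => c * IS (m / 2) (sin φ) * BB * (1 - sin φ ^ 2)
          / (2 * ((m : ℝ) / 2 + 1) * sin φ)) F
          (𝓝 (c * IS (m / 2) 1 * BB * (1 - 1 ^ 2) / (2 * ((m : ℝ) / 2 + 1) * 1))) :=
        ((((hIS.const_mul c).mul_const BB).mul ((hsin.pow 2).const_sub 1))).div
        (hsin.const_mul (2 * ((m : ℝ) / 2 + 1))) (by positivity)
      rwa [show c * IS (m / 2) 1 * BB * (1 - 1 ^ 2) / (2 * ((m : ℝ) / 2 + 1) * 1) = 0 by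
        norm_num] at h1
    refine squeeze_zero' ?_ ?_ hlim
    · filter_upwards [h0] with φ hφ
      obtain ⟨hs, hcos⟩ := hmem φ hφ
      exact div_nonneg (eF_nonneg hc ⟨hs.1.le, hs.2.le⟩) (pow_nonneg hcos.le _)
    · filter_upwards [h0] with φ hφ
      obtain ⟨hs, hcos⟩ := hmem φ hφ
      have h1 := eF_le2 hc ha hs
      have hk := kap_pos ⟨hs.1.le, hs.2⟩
      rw [rpow_add_one hk.ne', kap_cos' hφ] at h1
      rw [div_le_iff₀ (pow_pos hcos m)]
      refine h1.trans (le_of_eq ?_)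
      ring
  · filter_upwards [h0] with φ hφ
    obtain ⟨hs, hcos⟩ := hmem φ hφ
    unfold ZF
    rw [kap_cos' hφ, mul_div_assoc, mul_comm, div_mul_cancel₀ _ (pow_pos hcos m).ne']
    rw [abs_of_nonneg (mul_nonneg hc (Jc_nonneg _ _))]
    have h2 := Jc_le_II ha (T := sin φ) ⟨hs.1.le, hs.2⟩
    have h3 := II_anti ha (mem_Ici.2 le_rfl) (mem_Ici.2 hs.1.le) hs.1.le
    exact mul_le_mul_of_nonneg_left (h2.trans h3) hc
  · have hlim : Tendsto (fun φ => c * IS (m / 2) (sin φ) * BB * (1 - sin φ)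
        / (2 * ((m : ℝ) / 2 + 1) * sin φ)) F (𝓝 0) := by
      have h1 : Tendsto (fun φ => c * IS (m / 2) (sin φ) * BB * (1 - sin φ)
          / (2 * ((m : ℝ) / 2 + 1) * sin φ)) F
          (𝓝 (c * IS (m / 2) 1 * BB * (1 - 1) / (2 * ((m : ℝ) / 2 + 1) * 1))) :=
        ((((hIS.const_mul c).mul_const BB).mul (hsin.const_sub 1))).div
        (hsin.const_mul (2 * ((m : ℝ) / 2 + 1))) (by positivity)
      rwa [show c * IS (m / 2) 1 * BB * (1 - 1) / (2 * ((m : ℝ) / 2 + 1) * 1) = 0 by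
        norm_num] at h1
    refine squeeze_zero' ?_ ?_ hlim
    · filter_upwards [h0] with φ hφ
      obtain ⟨hs, hcos⟩ := hmem φ hφ
      exact div_nonneg (rF_nonneg hc ⟨hs.1.le, hs.2.le⟩)
        (mul_nonneg (pow_nonneg hcos.le _) (by linarith [hs.2]))
    · filter_upwards [h0] with φ hφ
      obtain ⟨hs, hcos⟩ := hmem φ hφ
      have h1 := rF_le hc ha hs
      unfold yF at h1
      rw [kap_cos hφ (by omega)] at h1
      have h1s : 0 < 1 - sin φ := by linarith [hs.2]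
      rw [div_le_iff₀ (mul_pos (pow_pos hcos _) h1s)]
      refine h1.trans (le_of_eq ?_)
      have := hs.1.ne'
      unfold IS
      field_simp

/-- existence of the certificate with the right normalisation -/
theorem exists_cert (h4 : 4 ≤ m) (h12 : m ≤ 12) : ∃ y Z e r : ℝ → ℝ,
    Cert m y Z e r ∧ CertLim m y Z e r ((m - 1) / (m - 2) * (II (m / 2) 1 / II (m / 2) 0)) ∧
    y 0 = ((m : ℝ) - 1) / (m - 2) ∧ Z 0 = ((m : ℝ) - 1) / (m - 2) ∧ e 0 = 0 := by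
  have hm4 : (4 : ℝ) ≤ m := by exact_mod_cast h4
  have ha : (2 : ℝ) ≤ (m : ℝ) / 2 := by linarith
  have hI := II_pos ha 0
  set c : ℝ := (m - 1) / (m - 2) / II (m / 2) 0 with hc
  have hc0 : 0 ≤ c := div_nonneg (div_nonneg (by linarith) (by linarith)) hI.le
  refine ⟨yF (m / 2) c, ZF (m / 2) c, eF (m / 2) c, rF (m / 2) c, certF h4 h12 hc0, ?_, ?_, ?_,
    eF_zero ha⟩
  · have := certLimF (c := c) h4 hc0
    have e : c * II (m / 2) 1 = (m - 1) / (m - 2) * (II (m / 2) 1 / II (m / 2) 0) := by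
      rw [hc]; ring
    rwa [e] at this
  · unfold yF
    rw [show (1 : ℝ) - 0 ^ 2 = 1 by norm_num, one_rpow, hc]
    field_simp
  · unfold ZF
    rw [show (1 : ℝ) - 0 ^ 2 = 1 by norm_num, one_rpow, hc, Jc_zero]
    field_simp

end Vale.Agent.P224.SM
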