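import Vale.Agent.P224.SM.Ana5
import Vale.Agent.P224.Bdl.B2

/-!
The values of the constants.
-/

namespace Vale.Agent.P224.SM

open MeasureTheory Set Filter Function Real Vale.Agent.P224 Vale.Agent.P224.FV
open scoped Topology

lemma Q_one (θ : ℝ) : Q 1 θ = 1 := by
  unfold Q
  rw [one_pow, one_mul, sin_sq_add_cos_sq, sqrt_one, inv_one]

lemma Q_zero {θ : ℝ} (hs : 0 < sin θ) : Q 0 θ = (sin θ)⁻¹ := by
  unfold Q
  rw [show sin θ ^ 2 + (0 : ℝ) ^ 2 * cos θ ^ 2 = sin θ ^ 2 by ring, sqrt_sq hs.le]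

lemma wt_nat {a : ℝ} (n : ℕ) (h : a - 1 = n) (θ : ℝ) : wt a θ = (sin θ * cos θ) ^ n := by
  unfold wt
  rw [h, rpow_natCast]

/-- the value at 1 from an antiderivative -/
lemma II_one_eq {a : ℝ} (n : ℕ) (h : a - 1 = n) (A : ℝ → ℝ)
    (hA : ∀ θ, HasDerivAt A ((sin θ * cos θ) ^ n) θ) : II a 1 = A (π / 2) - A 0 := by
  unfold II
  simp only [Q_one, mul_one, wt_nat n h]
  exact intervalIntegral.integral_eq_sub_of_hasDerivAt (fun θ _ => hA θ)
    (Continuous.intervalIntegrable (by fun_prop) _ _)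

/-- the value at 0 from an antiderivative -/
lemma II_zero_eq {a : ℝ} (n : ℕ) (h : a - 1 = (n + 1 : ℕ)) (A : ℝ → ℝ)
    (hA : ∀ θ, HasDerivAt A (sin θ ^ n * cos θ ^ (n + 1)) θ) : II a 0 = A (π / 2) - A 0 := by
  have e : II a 0 = ∫ θ in (0 : ℝ)..(π / 2), sin θ ^ n * cos θ ^ (n + 1) := by
    unfold II
    refine intervalIntegral.integral_congr_ae (Eventually.of_forall fun θ hθ => ?_)
    obtain ⟨hs, -⟩ := sin_pos_Ioc hθ
    rw [Q_zero hs, wt_nat (n + 1) h]
    field_simp
    ring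
  rw [e]
  exact intervalIntegral.integral_eq_sub_of_hasDerivAt (fun θ _ => hA θ)
    (Continuous.intervalIntegrable (by fun_prop) _ _)

lemma hsin_pow (n : ℕ) (θ : ℝ) : HasDerivAt (fun θ => sin θ ^ (n + 1))
    (((n : ℝ) + 1) * sin θ ^ n * cos θ) θ := by
  have := (hasDerivAt_sin θ).fun_pow (n + 1)
  refine this.congr_deriv ?_
  push_cast
  simp

lemma hcos_pow (n : ℕ) (θ : ℝ) : HasDerivAt (fun θ => cos θ ^ (n + 1))
    (-(((n : ℝ) + 1) * cos θ ^ n * sin θ)) θ := by
  have := (hasDerivAt_cos θ).fun_pow (n + 1)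
  refine this.congr_deriv ?_
  push_cast
  simp

/-- the Clifford ratio in dimension 12 -/
lemma evenRatio_six : evenRatio 6 = 231 / 160 := by
  rw [show (6 : ℕ) = 4 + 2 by norm_num, evenRatio_rec, evenRatio_four]
  norm_num

/-- the constants -/
theorem lam_eq : ∀ k : ℕ, 2 ≤ k → k ≤ 6 →
    2 * ((((2 * k : ℕ) : ℝ) - 1) / (((2 * k : ℕ) : ℝ) - 2) *
      (II (((2 * k : ℕ) : ℝ) / 2) 1 / II (((2 * k : ℕ) : ℝ) / 2) 0)) = evenRatio k := by
  intro k h2 h6
  have hs0 := sin_zero
  have hc0 := cos_zero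
  have hs1 := sin_pi_div_two
  have hc1 := cos_pi_div_two
  interval_cases k
  · have e1 : II (((2 * 2 : ℕ) : ℝ) / 2) 1 = 1 / 2 := by
      rw [II_one_eq 1 (by norm_num) (fun θ => sin θ ^ 2 / 2) ?_]
      · simp only [hs0, hs1]; norm_num
      · intro θ
        refine ((hsin_pow 1 θ).div_const 2).congr_deriv ?_
        push_cast; ring
    have e2 : II (((2 * 2 : ℕ) : ℝ) / 2) 0 = 1 := by
      rw [II_zero_eq 0 (by norm_num) (fun θ => sin θ) ?_]
      · simp only [hs0, hs1]; norm_num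
      · intro θ
        refine (hasDerivAt_sin θ).congr_deriv ?_
        ring
    rw [e1, e2, evenRatio_two]
    norm_num
  · have e1 : II (((2 * 3 : ℕ) : ℝ) / 2) 1 = π / 16 := by
      rw [II_one_eq 2 (by norm_num)
        (fun θ => θ / 8 - sin θ * cos θ * (1 - 2 * sin θ ^ 2) / 8) ?_]
      · simp only [hs0, hs1, hc0, hc1]; ring
      · intro θ
        have h1 := ((hasDerivAt_sin θ).fun_mul (hasDerivAt_cos θ)).fun_mul
          (((hsin_pow 1 θ).const_mul 2).const_sub 1)
        refine (((hasDerivAt_id θ).div_const 8).fun_sub (h1.div_const 8)).congr_deriv ?_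
        have h2 := sin_sq_add_cos_sq θ
        have h3 : cos θ ^ 2 = 1 - sin θ ^ 2 := by linarith
        have h4 : cos θ * cos θ = 1 - sin θ ^ 2 := by rw [← sq]; exact h3
        push_cast
        ring_nf
        rw [h3]
        ring
    have e2 : II (((2 * 3 : ℕ) : ℝ) / 2) 0 = 1 / 3 := by
      rw [II_zero_eq 1 (by norm_num) (fun θ => -(cos θ ^ 3 / 3)) ?_]
      · simp only [hc0, hc1]; norm_num
      · intro θ
        refine (((hcos_pow 2 θ).div_const 3).fun_neg).congr_deriv ?_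
        push_cast; ring
    rw [e1, e2, evenRatio_three]
    push_cast
    ring
  · have e1 : II (((2 * 4 : ℕ) : ℝ) / 2) 1 = 1 / 12 := by
      rw [II_one_eq 3 (by norm_num) (fun θ => sin θ ^ 4 / 4 - sin θ ^ 6 / 6) ?_]
      · simp only [hs0, hs1]; norm_num
      · intro θ
        refine (((hsin_pow 3 θ).div_const 4).fun_sub ((hsin_pow 5 θ).div_const 6)).congr_deriv ?_
        have h2 := sin_sq_add_cos_sq θ
        have h3 : cos θ ^ 2 = 1 - sin θ ^ 2 := by linarith
        have h4 : (sin θ * cos θ) ^ 3 = sin θ ^ 3 * cos θ * cos θ ^ 2 := by ring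
        rw [h4, h3]
        push_cast; ring
    have e2 : II (((2 * 4 : ℕ) : ℝ) / 2) 0 = 2 / 15 := by
      rw [II_zero_eq 2 (by norm_num) (fun θ => sin θ ^ 3 / 3 - sin θ ^ 5 / 5) ?_]
      · simp only [hs0, hs1]; norm_num
      · intro θ
        refine (((hsin_pow 2 θ).div_const 3).fun_sub ((hsin_pow 4 θ).div_const 5)).congr_deriv ?_
        have h2 := sin_sq_add_cos_sq θ
        have h3 : cos θ ^ 2 = 1 - sin θ ^ 2 := by linarith
        have h4 : cos θ ^ (2 + 1) = cos θ * cos θ ^ 2 := by ring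
        rw [h4, h3]
        push_cast; ring
    rw [e1, e2, evenRatio_four]
    norm_num
  · have e1 : II (((2 * 5 : ℕ) : ℝ) / 2) 1 = 3 * π / 256 := by
      rw [II_one_eq 4 (by norm_num)
        (fun θ => 3 * θ / 128 - sin θ * cos θ * (1 - 2 * sin θ ^ 2) * 3 / 128
          - (sin θ * cos θ) ^ 3 * (1 - 2 * sin θ ^ 2) / 16) ?_]
      · simp only [hs0, hs1, hc0, hc1]; ring
      · intro θ
        have h1 := ((hasDerivAt_sin θ).fun_mul (hasDerivAt_cos θ))
        have h2 := ((hsin_pow 1 θ).const_mul 2).const_sub 1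
        refine ((((hasDerivAt_id θ).const_mul 3).div_const 128).fun_sub
          (((h1.fun_mul h2).mul_const 3).div_const 128)).fun_sub
          (((h1.fun_pow 3).fun_mul h2).div_const 16) |>.congr_deriv ?_
        have h2 := sin_sq_add_cos_sq θ
        have h3 : cos θ ^ 2 = 1 - sin θ ^ 2 := by linarith
        have h4 : cos θ ^ 4 = (1 - sin θ ^ 2) ^ 2 := by rw [← h3]; ring
        push_cast
        ring_nf
        rw [h3, h4]
        ring
    have e2 : II (((2 * 5 : ℕ) : ℝ) / 2) 0 = 2 / 35 := by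
      rw [II_zero_eq 3 (by norm_num) (fun θ => cos θ ^ 7 / 7 - cos θ ^ 5 / 5) ?_]
      · simp only [hc0, hc1]; norm_num
      · intro θ
        refine (((hcos_pow 6 θ).div_const 7).fun_sub ((hcos_pow 4 θ).div_const 5)).congr_deriv ?_
        have h2 := sin_sq_add_cos_sq θ
        have h3 : sin θ ^ 2 = 1 - cos θ ^ 2 := by linarith
        have h4 : sin θ ^ 3 = sin θ * sin θ ^ 2 := by ring
        rw [h4, h3]
        push_cast; ring
    rw [e1, e2, evenRatio_five]
    push_cast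
    ring
  · have e1 : II (((2 * 6 : ℕ) : ℝ) / 2) 1 = 1 / 60 := by
      rw [II_one_eq 5 (by norm_num)
        (fun θ => sin θ ^ 6 / 6 - sin θ ^ 8 / 4 + sin θ ^ 10 / 10) ?_]
      · simp only [hs0, hs1]; norm_num
      · intro θ
        refine ((((hsin_pow 5 θ).div_const 6).fun_sub ((hsin_pow 7 θ).div_const 4)).fun_add
          ((hsin_pow 9 θ).div_const 10)).congr_deriv ?_
        have h2 := sin_sq_add_cos_sq θ
        have h3 : cos θ ^ 2 = 1 - sin θ ^ 2 := by linarith
        have h4 : (sin θ * cos θ) ^ 5 = sin θ ^ 5 * cos θ * (cos θ ^ 2) ^ 2 := by ring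
        rw [h4, h3]
        push_cast; ring
    have e2 : II (((2 * 6 : ℕ) : ℝ) / 2) 0 = 8 / 315 := by
      rw [II_zero_eq 4 (by norm_num)
        (fun θ => sin θ ^ 5 / 5 - 2 * sin θ ^ 7 / 7 + sin θ ^ 9 / 9) ?_]
      · simp only [hs0, hs1]; norm_num
      · intro θ
        refine ((((hsin_pow 4 θ).div_const 5).fun_sub
          (((hsin_pow 6 θ).const_mul 2).div_const 7)).fun_add
          ((hsin_pow 8 θ).div_const 9)).congr_deriv ?_
        have h2 := sin_sq_add_cos_sq θ
        have h3 : cos θ ^ 2 = 1 - sin θ ^ 2 := by linarith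
        have h4 : cos θ ^ (4 + 1) = cos θ * (cos θ ^ 2) ^ 2 := by ring
        rw [h4, h3]
        push_cast; ring
    rw [e1, e2, evenRatio_six]
    norm_num

end Vale.Agent.P224.SM
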