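import Vale.Agent.P224.SM.Geo
import Vale.Agent.P224.SM.Cst

/-!
The sharp volume bound for balanced minimal hypersurfaces in dimensions 4, 6, 8, 10, 12.
-/

namespace Vale.Agent.P224.SM

open MeasureTheory Set Filter Function Real Module Vale.Agent.P224 Vale.Agent.P224.FV
open scoped RealInnerProductSpace Topology ContDiff Manifold

set_option linter.unusedSectionVars false

section

variable {V W M : Type*} [NormedAddCommGroup V] [InnerProductSpace ℝ V] [FiniteDimensional ℝ V]
  [NormedAddCommGroup W] [InnerProductSpace ℝ W] [FiniteDimensional ℝ W]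
  [TopologicalSpace M] [ChartedSpace V M]
  [MeasurableSpace V] [BorelSpace V] [MeasurableSpace M] [BorelSpace M]

/-- the balanced class -/
theorem main_balanced [IsManifold 𝓘(ℝ, V) ∞ M] [CompactSpace M] [T2Space M] [Nonempty M]
    (hW : finrank ℝ W = finrank ℝ V + 2) {F : M → W}
    (hF : SphImm V F) (hmin : ∀ x n, IsUnitNormal V F x n → meanCurv V F x n = 0)
    {N : M → W} (hNs : ContMDiff 𝓘(ℝ, V) 𝓘(ℝ, W) ∞ N) (hN : ∀ x, IsUnitNormal V F x (N x))
    (h0 : ∫ x, N x ∂(volM V F) = 0) {k : ℕ} (hk2 : 2 ≤ k) (hk6 : k ≤ 6)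
    (hk : finrank ℝ V = 2 * k) :
    ENNReal.ofReal (leastClifford (finrank ℝ V)) ≤ volM V F univ := by
  borelize W
  have hm2 : 2 ≤ finrank ℝ V := by omega
  have hm1 : 1 ≤ finrank ℝ V := by omega
  have hfin : IsFiniteMeasure (volM V F) := isFiniteMeasure_volM hF
  have hT := twoPt_of_min hm1 hW hF hmin hNs hN
  have hs := sphereVol_pos' (finrank ℝ V)
  have h1 := one_le hm1 hW hF hT
  have hpos : 0 < (volM V F).real univ := hs.trans_le h1
  have hconv : ∀ c : ℝ, c ≤ (volM V F).real univ → ENNReal.ofReal c ≤ volM V F univ := by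
    intro c hc
    exact ENNReal.ofReal_le_of_le_toReal hc
  by_cases hinj : Function.Injective F
  · obtain ⟨y, Z, e, r, hc, hl, hy0, hZ0, he0⟩ :=
      exists_cert (m := finrank ℝ V) (by omega) (by omega)
    have hlam := lam_eq k hk2 hk6
    rw [← hk] at hlam
    set lam : ℝ := ((finrank ℝ V : ℝ) - 1) / ((finrank ℝ V : ℝ) - 2) *
      (II ((finrank ℝ V : ℝ) / 2) 1 / II ((finrank ℝ V : ℝ) / 2) 0) with hlamdef
    have hlam0 : 0 ≤ lam := by
      have := evenRatio_pos k
      linarith
    have key := sharp_inj (by omega) hW hF hmin hNs hN hinj hlam0 hc hl hy0 hZ0 he0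
    rw [h0, norm_zero, hlam] at key
    have h2 : evenRatio k * sphereVol (finrank ℝ V) ≤ (volM V F).real univ := by
      have h3 : (evenRatio k * sphereVol (finrank ℝ V)) * (volM V F).real univ
          ≤ (volM V F).real univ * (volM V F).real univ := by
        nlinarith
      exact le_of_mul_le_mul_right h3 hpos
    apply hconv
    refine le_trans ?_ h2
    rw [hk]
    exact even_bound (by omega) le_rfl
  · simp only [Function.Injective, not_forall] at hinj
    obtain ⟨z', z, hz, hne⟩ := hinj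
    have h2 := two_le_of_double hm1 hW hF hT hne hz
    apply hconv
    exact (leastClifford_lt_two hm2).trans h2

/-- hypersurfaces with enough symmetries -/
theorem main_sym [IsManifold 𝓘(ℝ, V) ∞ M] [CompactSpace M] [T2Space M] [ConnectedSpace M]
    (hW : finrank ℝ W = finrank ℝ V + 2) {F : M → W}
    (hF : SphImm V F) (hmin : ∀ x n, IsUnitNormal V F x n → meanCurv V F x n = 0)
    (hne : ¬ ∃ a : W, a ≠ 0 ∧ ∀ x, ⟪F x, a⟫ = 0)
    (hv : ∀ v : W, (∀ g : W ≃ₗᵢ[ℝ] W, g '' range F = range F → g v = v ∨ g v = -v) →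
      (∀ e : W, (ℝ ∙ e)ᗮ.reflection '' range F = range F → ⟪v, e⟫ = 0) → v = 0)
    {k : ℕ} (hk2 : 2 ≤ k) (hk6 : k ≤ 6) (hk : finrank ℝ V = 2 * k) :
    ENNReal.ofReal (leastClifford (finrank ℝ V)) ≤ volM V F univ := by
  have hm : 2 ≤ finrank ℝ V := by omega
  borelize W
  have hfin : IsFiniteMeasure (volM V F) := isFiniteMeasure_volM hF
  have hconv : ∀ c : ℝ, c ≤ (volM V F).real univ → ENNReal.ofReal c ≤ volM V F univ := by
    intro c hc
    exact ENNReal.ofReal_le_of_le_toReal hc
  by_cases hinj : Function.Injective F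
  swap
  · have h2 := TwoSide.two_le (by omega) hW hF hmin hinj
    have h3 := leastClifford_lt_two hm
    exact hconv _ (h3.trans h2)
  obtain ⟨N, hNs, hN⟩ := TwoSide.exists_normal hW hF hinj
  have hFc : Continuous F := hF.smooth.continuous
  have hNc : Continuous N := hNs.continuous
  have h0 : ∫ x, N x ∂(volM V F) = 0 := by
    apply hv
    · intro g hg
      obtain ⟨σ, hσ, h | h⟩ := Sym.sym_data hW hF hinj hFc hNc hN g hg
      · exact Or.inl h.2.1
      · exact Or.inr h.2.1
    · intro e he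
      exact (Sym.refl_data hW hF hinj hFc hNc hN hne e he).1
  exact main_balanced hW hF hmin hNs hN h0 hk2 hk6 hk

end

end Vale.Agent.P224.SM
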