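import Mathlib

/-!
Parametric integrals of continuous kernels.
-/

namespace Vale.Agent.P224.SM

open MeasureTheory Set Filter Function
open scoped Topology

abbrev R4 := ℝ × ℝ × ℝ × ℝ

variable {Y : Type*} [MeasurableSpace Y] (ν : Measure Y) [IsFiniteMeasure ν] {A : Type*}
  [TopologicalSpace A] [MeasurableSpace A] {κ : Y → A} {K : Set A}

lemma integrable_param (hκ : Measurable κ) (hK : IsCompact K) (hκK : ∀ y, κ y ∈ K) {f : A → ℝ}
    (hf : Measurable f) (hc : ContinuousOn f K) : Integrable (fun y => f (κ y)) ν := by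
  obtain ⟨C, hC⟩ := hK.exists_bound_of_continuousOn hc
  exact Integrable.of_bound (hf.comp hκ).aestronglyMeasurable C
    (Eventually.of_forall fun y => hC _ (hκK y))

omit [MeasurableSpace Y] in
lemma contOn_slice {g : ℝ → A → ℝ} {S : Set ℝ} (h : ContinuousOn (uncurry g) (S ×ˢ K)) {T : ℝ}
    (hT : T ∈ S) : ContinuousOn (g T) K := by
  have h2 : ContinuousOn (fun k : A => (T, k)) K := by fun_prop
  exact h.comp h2 (fun k hk => ⟨hT, hk⟩)

/-- continuity of a parametric integral -/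
lemma contOn_param (hκ : Measurable κ) (hK : IsCompact K) (hκK : ∀ y, κ y ∈ K) {g : ℝ → A → ℝ}
    (hgm : ∀ T, Measurable (g T)) (hgc : ContinuousOn (uncurry g) (Ico 0 1 ×ˢ K)) :
    ContinuousOn (fun T => ∫ y, g T (κ y) ∂ν) (Ico 0 1) := by
  intro T₀ hT₀
  set b : ℝ := (T₀ + 1) / 2 with hb
  have hb1 : b < 1 := by rw [hb]; linarith [hT₀.2]
  have hb0 : T₀ < b := by rw [hb]; linarith [hT₀.2]
  have hsub : Icc 0 b ×ˢ K ⊆ Ico 0 1 ×ˢ K :=
    prod_mono (fun T hT => ⟨hT.1, hT.2.trans_lt hb1⟩) subset_rfl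
  obtain ⟨C, hC⟩ := (isCompact_Icc.prod hK).exists_bound_of_continuousOn (hgc.mono hsub)
  have hev : ∀ᶠ T in 𝓝[Ico 0 1] T₀, T ∈ Icc 0 b := by
    have h1 : ∀ᶠ T in 𝓝[Ico 0 1] T₀, T ∈ Ico (0 : ℝ) 1 := self_mem_nhdsWithin
    have h2 : ∀ᶠ T in 𝓝[Ico 0 1] T₀, T < b :=
      nhdsWithin_le_nhds (Iio_mem_nhds hb0)
    filter_upwards [h1, h2] with T hT1 hT2
    exact ⟨hT1.1, hT2.le⟩
  refine continuousWithinAt_of_dominated (bound := fun _ => C)
    (Eventually.of_forall fun T => ((hgm T).comp hκ).aestronglyMeasurable) ?_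
    (integrable_const C) ?_
  · filter_upwards [hev] with T hT
    exact Eventually.of_forall fun y => hC (T, κ y) ⟨hT, hκK y⟩
  · refine Eventually.of_forall fun y => ?_
    have h1 : ContinuousWithinAt (uncurry g) (Ico 0 1 ×ˢ K) (T₀, κ y) := hgc _ ⟨hT₀, hκK y⟩
    have h2 : ContinuousWithinAt (fun T : ℝ => (T, κ y)) (Ico 0 1) T₀ := by fun_prop
    exact ContinuousWithinAt.comp (f := fun T : ℝ => (T, κ y)) h1 h2 (fun T hT => ⟨hT, hκK y⟩)

/-- differentiation of a parametric integral -/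
lemma deriv_param (hκ : Measurable κ) (hK : IsCompact K) (hκK : ∀ y, κ y ∈ K)
    {g g' : ℝ → A → ℝ} (hgm : ∀ T, Measurable (g T)) (hg'm : ∀ T, Measurable (g' T))
    (hgc : ContinuousOn (uncurry g) (Ico 0 1 ×ˢ K))
    (hg'c : ContinuousOn (uncurry g') (Ioo 0 1 ×ˢ K))
    (hd : ∀ T ∈ Ioo (0 : ℝ) 1, ∀ k ∈ K, HasDerivAt (fun T => g T k) (g' T k) T)
    {T₀ : ℝ} (hT₀ : T₀ ∈ Ioo (0 : ℝ) 1) :
    HasDerivAt (fun T => ∫ y, g T (κ y) ∂ν) (∫ y, g' T₀ (κ y) ∂ν) T₀ := by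
  set a : ℝ := T₀ / 2 with ha
  set b : ℝ := (T₀ + 1) / 2 with hb
  have ha0 : 0 < a := by rw [ha]; linarith [hT₀.1]
  have haT : a < T₀ := by rw [ha]; linarith [hT₀.1]
  have hb1 : b < 1 := by rw [hb]; linarith [hT₀.2]
  have hb0 : T₀ < b := by rw [hb]; linarith [hT₀.2]
  have hsub : Icc a b ×ˢ K ⊆ Ioo 0 1 ×ˢ K :=
    prod_mono (fun T hT => ⟨ha0.trans_le hT.1, hT.2.trans_lt hb1⟩) subset_rfl
  obtain ⟨C, hC⟩ := (isCompact_Icc.prod hK).exists_bound_of_continuousOn (hg'c.mono hsub)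
  have hc0 : ContinuousOn (g T₀) K := by
    have h2 : ContinuousOn (fun k : A => (T₀, k)) K := by fun_prop
    exact hgc.comp h2 (fun k hk => ⟨⟨hT₀.1.le, hT₀.2⟩, hk⟩)
  have key := hasDerivAt_integral_of_dominated_loc_of_deriv_le (μ := ν) (s := Ioo a b) (x₀ := T₀)
    (F := fun T y => g T (κ y)) (F' := fun T y => g' T (κ y)) (bound := fun _ => C)
    (isOpen_Ioo.mem_nhds ⟨haT, hb0⟩)
    (Eventually.of_forall fun T => ((hgm T).comp hκ).aestronglyMeasurable)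
    (integrable_param ν hκ hK hκK (hgm T₀) hc0)
    ((hg'm T₀).comp hκ).aestronglyMeasurable
    (Eventually.of_forall fun y T hT => hC (T, κ y) ⟨⟨hT.1.le, hT.2.le⟩, hκK y⟩)
    (integrable_const C)
    (Eventually.of_forall fun y T hT =>
      hd T ⟨ha0.trans hT.1, hT.2.trans hb1⟩ (κ y) (hκK y))
  exact key.2

end Vale.Agent.P224.SM
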