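import Vale.Agent.P224.Bdl.B2
import Vale.Agent.P224.SM.Row
import Vale.Agent.P224.SM.Param

/-!
The monotone two point functional.
-/

namespace Vale.Agent.P224.SM

open MeasureTheory Set Filter Function
open scoped Topology RealInnerProductSpace

set_option linter.unusedSectionVars false

/-- the coefficient functions -/
structure Cert (m : ℕ) (y Z e r : ℝ → ℝ) : Prop where
  cy : ContinuousOn y (Ico 0 1)
  cZ : ContinuousOn Z (Ico 0 1)
  ce : ContinuousOn e (Ico 0 1)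
  cr : ContinuousOn r (Ico 0 1)
  hy : ∀ T ∈ Ioo (0 : ℝ) 1,
    HasDerivAt y ((Z T - y T - ((m : ℝ) - 3) * T ^ 2 * y T) / (T * (1 - T ^ 2))) T
  hZ : ∀ T ∈ Ioo (0 : ℝ) 1, HasDerivAt Z ((m : ℝ) / (2 * T) * (Z T - y T)) T
  he : ∀ T ∈ Ioo (0 : ℝ) 1, HasDerivAt e (((m : ℝ) * e T / T - Z T) / 2) T
  hr : ∀ T ∈ Ioo (0 : ℝ) 1, HasDerivAt r (-(e T / T + ((m : ℝ) - 2) * T * r T) / (1 - T ^ 2)) T
  e0 : ∀ T ∈ Ioo (0 : ℝ) 1, 0 ≤ e T
  r0 : ∀ T ∈ Ioo (0 : ℝ) 1, 0 ≤ r T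
  y0 : ∀ T ∈ Ioo (0 : ℝ) 1, 0 ≤ y T
  pos : ∀ T ∈ Ioo (0 : ℝ) 1,
    (m : ℝ) * ((m : ℝ) + 1) * T ^ 2 * r T ≤ (1 - T) * (T * y T + m * r T)

/-- the kernel as a function of the pair data -/
noncomputable def gK (m : ℕ) (y Z e r : ℝ → ℝ) (T : ℝ) (k : R4) : ℝ :=
  gI m T (y T) (Z T) (e T) (r T) k.1 k.2.1 k.2.2.1 k.2.2.2 (ker T (m - 1) k.1) (ker T m k.1)
    (ker T (m + 1) k.1) (ker T (m + 2) k.1)

/-- the derivative of the kernel -/
noncomputable def gK' (m : ℕ) (y Z e r : ℝ → ℝ) (T : ℝ) (k : R4) : ℝ :=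
  gI' m T (y T) (Z T) (e T) (r T)
    ((Z T - y T - ((m : ℝ) - 3) * T ^ 2 * y T) / (T * (1 - T ^ 2)))
    ((m : ℝ) / (2 * T) * (Z T - y T)) (((m : ℝ) * e T / T - Z T) / 2)
    (-(e T / T + ((m : ℝ) - 2) * T * r T) / (1 - T ^ 2))
    k.1 k.2.1 k.2.2.1 k.2.2.2 (ker T (m - 1) k.1) (ker T m k.1)
    (ker T (m + 1) k.1) (ker T (m + 2) k.1) (ker T (m + 3) k.1)

/-- the cube of pair data -/
def KK : Set R4 := Icc (-1) 1 ×ˢ (Icc (-1) 1 ×ˢ (Icc (-1) 1 ×ˢ Icc (-1) 1))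

lemma isCompact_KK : IsCompact KK :=
  isCompact_Icc.prod (isCompact_Icc.prod (isCompact_Icc.prod isCompact_Icc))

lemma one_sub_pos' {T s : ℝ} (hT : T ∈ Ico (0 : ℝ) 1) (hs : s ≤ 1) : 0 < 1 - T * s := by
  have h2 : T * s ≤ T * 1 := mul_le_mul_of_nonneg_left hs hT.1
  linarith [hT.2]

lemma measurable_ker (T : ℝ) (q : ℕ) : Measurable (ker T q) := by
  unfold ker
  fun_prop

lemma contOn_ker (q : ℕ) : ContinuousOn (fun z : ℝ × R4 => ker z.1 q z.2.1) (Ico 0 1 ×ˢ KK) := by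
  unfold ker
  refine ContinuousOn.inv₀ (by fun_prop) ?_
  rintro ⟨T, k⟩ ⟨hT, hk⟩
  exact pow_ne_zero _ (one_sub_pos' hT hk.1.2).ne'

/-- T derivative of the kernels -/
lemma hasDerivAt_ker_T {T s : ℝ} {q : ℕ} (h : 1 - T * s ≠ 0) :
    HasDerivAt (fun T => ker T q s) (q * s * ker T (q + 1) s) T := by
  have h1 : HasDerivAt (fun T => 1 - T * s) (-s) T := by
    simpa using ((hasDerivAt_id T).mul_const s).const_sub 1
  have h2 := (h1.fun_pow q).fun_inv (pow_ne_zero q h)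
  refine h2.congr_deriv ?_
  unfold ker
  rcases q with _ | q
  · simp
  · simp only [Nat.add_sub_cancel]
    field_simp
    ring

section

variable {m : ℕ} {y Z e r : ℝ → ℝ}

lemma Cert.hasDerivAt_gK (h : Cert m y Z e r) (hm : 1 ≤ m) {T : ℝ} (hT : T ∈ Ioo (0 : ℝ) 1)
    {k : R4} (hk : k ∈ KK) : HasDerivAt (fun T => gK m y Z e r T k) (gK' m y Z e r T k) T := by
  have hv : 1 - T * k.1 ≠ 0 := (one_sub_pos' ⟨hT.1.le, hT.2⟩ hk.1.2).ne'
  unfold gK gK'
  have e0 : ((m - 1 : ℕ) : ℝ) = (m : ℝ) - 1 := by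
    rw [Nat.cast_sub hm]; simp
  have k0 := hasDerivAt_ker_T (q := m - 1) hv
  rw [e0, Nat.sub_add_cancel hm] at k0
  have k1 := hasDerivAt_ker_T (q := m) hv
  have k2 := hasDerivAt_ker_T (q := m + 1) hv
  have k3 := hasDerivAt_ker_T (q := m + 2) hv
  refine hasDerivAt_gI (h.hy T hT) (h.hZ T hT) (h.he T hT) (h.hr T hT) k0 k1 ?_ ?_
  · refine k2.congr_deriv ?_
    push_cast
    ring
  · refine k3.congr_deriv ?_
    push_cast
    ring

lemma measurable_gK (T : ℝ) : Measurable (gK m y Z e r T) := by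
  have h0 := measurable_ker T (m - 1)
  have h1 := measurable_ker T m
  have h2 := measurable_ker T (m + 1)
  have h3 := measurable_ker T (m + 2)
  unfold gK gI
  fun_prop

lemma measurable_gK' (T : ℝ) : Measurable (gK' m y Z e r T) := by
  have h0 := measurable_ker T (m - 1)
  have h1 := measurable_ker T m
  have h2 := measurable_ker T (m + 1)
  have h3 := measurable_ker T (m + 2)
  have h4 := measurable_ker T (m + 3)
  unfold gK' gI'
  fun_prop

lemma contOn_gI {α : Type*} [TopologicalSpace α] {S : Set α} {M : ℝ}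
    {T y Z e r s t p c P0 P P1 P2 : α → ℝ} (hT : ContinuousOn T S) (hy : ContinuousOn y S)
    (hZ : ContinuousOn Z S) (he : ContinuousOn e S) (hr : ContinuousOn r S)
    (hs : ContinuousOn s S) (ht : ContinuousOn t S) (hp : ContinuousOn p S) (hc : ContinuousOn c S)
    (h0 : ContinuousOn P0 S) (h1 : ContinuousOn P S) (h2 : ContinuousOn P1 S)
    (h3 : ContinuousOn P2 S) :
    ContinuousOn (fun a => gI M (T a) (y a) (Z a) (e a) (r a) (s a) (t a) (p a) (c a) (P0 a) (P a)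
      (P1 a) (P2 a)) S := by
  unfold gI
  fun_prop

lemma contOn_gI' {α : Type*} [TopologicalSpace α] {S : Set α} {M : ℝ}
    {T y Z e r y' Z' e' r' s t p c P0 P P1 P2 P3 : α → ℝ} (hT : ContinuousOn T S)
    (hy : ContinuousOn y S) (hZ : ContinuousOn Z S) (he : ContinuousOn e S)
    (hr : ContinuousOn r S) (hy' : ContinuousOn y' S)
    (hZ' : ContinuousOn Z' S) (he' : ContinuousOn e' S) (hr' : ContinuousOn r' S)
    (hs : ContinuousOn s S) (ht : ContinuousOn t S) (hp : ContinuousOn p S)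
    (hc : ContinuousOn c S) (h0 : ContinuousOn P0 S) (h1 : ContinuousOn P S)
    (h2 : ContinuousOn P1 S) (h3 : ContinuousOn P2 S) (h4 : ContinuousOn P3 S) :
    ContinuousOn (fun a => gI' M (T a) (y a) (Z a) (e a) (r a) (y' a) (Z' a) (e' a) (r' a) (s a)
      (t a) (p a) (c a) (P0 a) (P a) (P1 a) (P2 a) (P3 a)) S := by
  unfold gI'
  fun_prop

lemma Cert.contOn_gK (h : Cert m y Z e r) :
    ContinuousOn (uncurry (gK m y Z e r)) (Ico 0 1 ×ˢ KK) := by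
  have h0 := contOn_ker (m - 1)
  have h1 := contOn_ker m
  have h2 := contOn_ker (m + 1)
  have h3 := contOn_ker (m + 2)
  have c1 : ContinuousOn (fun z : ℝ × R4 => y z.1) (Ico 0 1 ×ˢ KK) :=
    h.cy.comp continuousOn_fst (fun z hz => hz.1)
  have c2 : ContinuousOn (fun z : ℝ × R4 => Z z.1) (Ico 0 1 ×ˢ KK) :=
    h.cZ.comp continuousOn_fst (fun z hz => hz.1)
  have c3 : ContinuousOn (fun z : ℝ × R4 => e z.1) (Ico 0 1 ×ˢ KK) :=
    h.ce.comp continuousOn_fst (fun z hz => hz.1)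
  have c4 : ContinuousOn (fun z : ℝ × R4 => r z.1) (Ico 0 1 ×ˢ KK) :=
    h.cr.comp continuousOn_fst (fun z hz => hz.1)
  exact contOn_gI continuousOn_fst c1 c2 c3 c4 (by fun_prop) (by fun_prop) (by fun_prop)
    (by fun_prop) h0 h1 h2 h3

lemma contOn_y' {α : Type*} [TopologicalSpace α] {S : Set α} {M : ℝ} {T y Z : α → ℝ}
    (hT : ContinuousOn T S) (hy : ContinuousOn y S) (hZ : ContinuousOn Z S)
    (hS : ∀ a ∈ S, T a ∈ Ioo (0 : ℝ) 1) :
    ContinuousOn (fun a => (Z a - y a - (M - 3) * T a ^ 2 * y a) / (T a * (1 - T a ^ 2))) S := by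
  refine ContinuousOn.div (by fun_prop) (by fun_prop) fun a ha => ?_
  have h1 := hS a ha
  have : 0 < 1 - T a ^ 2 := by nlinarith [h1.1, h1.2]
  exact (mul_pos h1.1 this).ne'

lemma contOn_Z' {α : Type*} [TopologicalSpace α] {S : Set α} {M : ℝ} {T y Z : α → ℝ}
    (hT : ContinuousOn T S) (hy : ContinuousOn y S) (hZ : ContinuousOn Z S)
    (hS : ∀ a ∈ S, T a ∈ Ioo (0 : ℝ) 1) :
    ContinuousOn (fun a => M / (2 * T a) * (Z a - y a)) S := by
  refine ContinuousOn.mul (ContinuousOn.div (by fun_prop) (by fun_prop) fun a ha => ?_)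
    (by fun_prop)
  exact (mul_pos two_pos (hS a ha).1).ne'

lemma contOn_e' {α : Type*} [TopologicalSpace α] {S : Set α} {M : ℝ} {T e Z : α → ℝ}
    (hT : ContinuousOn T S) (he : ContinuousOn e S) (hZ : ContinuousOn Z S)
    (hS : ∀ a ∈ S, T a ∈ Ioo (0 : ℝ) 1) :
    ContinuousOn (fun a => (M * e a / T a - Z a) / 2) S := by
  have h1 : ContinuousOn (fun a => M * e a / T a) S :=
    ContinuousOn.div (by fun_prop) hT fun a ha => (hS a ha).1.ne'
  fun_prop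

lemma contOn_r' {α : Type*} [TopologicalSpace α] {S : Set α} {M : ℝ} {T e r : α → ℝ}
    (hT : ContinuousOn T S) (he : ContinuousOn e S) (hr : ContinuousOn r S)
    (hS : ∀ a ∈ S, T a ∈ Ioo (0 : ℝ) 1) :
    ContinuousOn (fun a => -(e a / T a + (M - 2) * T a * r a) / (1 - T a ^ 2)) S := by
  have h2 : ContinuousOn (fun a => e a / T a) S :=
    he.div hT fun a ha => (hS a ha).1.ne'
  refine ContinuousOn.div (by fun_prop) (by fun_prop) fun a ha => ?_
  have h1 := hS a ha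
  have : 0 < 1 - T a ^ 2 := by nlinarith [h1.1, h1.2]
  exact this.ne'

lemma Cert.contOn_gK' (h : Cert m y Z e r) :
    ContinuousOn (uncurry (gK' m y Z e r)) (Ioo 0 1 ×ˢ KK) := by
  have hsub : Ioo (0 : ℝ) 1 ×ˢ KK ⊆ Ico 0 1 ×ˢ KK := prod_mono Ioo_subset_Ico_self subset_rfl
  have h0 := (contOn_ker (m - 1)).mono hsub
  have h1 := (contOn_ker m).mono hsub
  have h2 := (contOn_ker (m + 1)).mono hsub
  have h3 := (contOn_ker (m + 2)).mono hsub
  have h4 := (contOn_ker (m + 3)).mono hsub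
  have c1 : ContinuousOn (fun z : ℝ × R4 => y z.1) (Ioo 0 1 ×ˢ KK) :=
    h.cy.comp continuousOn_fst (fun z hz => Ioo_subset_Ico_self hz.1)
  have c2 : ContinuousOn (fun z : ℝ × R4 => Z z.1) (Ioo 0 1 ×ˢ KK) :=
    h.cZ.comp continuousOn_fst (fun z hz => Ioo_subset_Ico_self hz.1)
  have c3 : ContinuousOn (fun z : ℝ × R4 => e z.1) (Ioo 0 1 ×ˢ KK) :=
    h.ce.comp continuousOn_fst (fun z hz => Ioo_subset_Ico_self hz.1)
  have c4 : ContinuousOn (fun z : ℝ × R4 => r z.1) (Ioo 0 1 ×ˢ KK) :=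
    h.cr.comp continuousOn_fst (fun z hz => Ioo_subset_Ico_self hz.1)
  have hS : ∀ a ∈ (Ioo (0 : ℝ) 1 ×ˢ KK : Set (ℝ × R4)), a.1 ∈ Ioo (0 : ℝ) 1 := fun a ha => ha.1
  exact contOn_gI' continuousOn_fst c1 c2 c3 c4 (contOn_y' continuousOn_fst c1 c2 hS)
    (contOn_Z' continuousOn_fst c1 c2 hS) (contOn_e' continuousOn_fst c3 c2 hS)
    (contOn_r' continuousOn_fst c3 c4 hS) (by fun_prop) (by fun_prop) (by fun_prop)
    (by fun_prop) h0 h1 h2 h3 h4

end

end Vale.Agent.P224.SM
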