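import Vale.Agent.P224.Bdl.B2
import Vale.Agent.P224.SM.Alg

/-!
The rows of the two point method for a minimal immersion.
-/

namespace Vale.Agent.P224.SM

open Matrix MeasureTheory Module Function Set Vale.Agent.P224 Vale.Agent.P224.FV
open scoped RealInnerProductSpace Topology ContDiff Manifold

set_option linter.unusedSectionVars false

section

variable {V W M : Type*} [NormedAddCommGroup V] [InnerProductSpace ℝ V] [FiniteDimensional ℝ V]
  [NormedAddCommGroup W] [InnerProductSpace ℝ W] [FiniteDimensional ℝ W]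
  [TopologicalSpace M] [ChartedSpace V M]
  [MeasurableSpace V] [BorelSpace V] [MeasurableSpace M] [BorelSpace M]
  [IsManifold 𝓘(ℝ, V) ∞ M] [CompactSpace M] [T2Space M]

/-- closedness of the form dual to `N ∧ φ` -/
theorem closed_id (hW : finrank ℝ W = finrank ℝ V + 2) {F : M → W}
    (hF : SphImm V F) (hmin : ∀ x n, IsUnitNormal V F x n → meanCurv V F x n = 0)
    {N : M → W} (hNs : ContMDiff 𝓘(ℝ, V) 𝓘(ℝ, W) ∞ N) (hN : ∀ x, IsUnitNormal V F x (N x))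
    (a b : W) {K : M → ℝ} (hK : ContMDiff 𝓘(ℝ, V) 𝓘(ℝ, ℝ) ∞ K) :
    ∫ x, (⟪N x, a⟫ * dl V F b K x - ⟪N x, b⟫ * dl V F a K x) ∂(volM V F)
      = (finrank ℝ V : ℝ) * ∫ x, (⟪N x, a⟫ * ⟪F x, b⟫ - ⟪N x, b⟫ * ⟪F x, a⟫) * K x
        ∂(volM V F) := by
  have hV : VolChart V F := volChart_of_sphImm hF
  have hfin : IsFiniteMeasure (volM V F) := isFiniteMeasure_volM hF
  have hsa := smooth_inner hNs a
  have hsb := smooth_inner hNs b
  have hm1 : ContMDiff 𝓘(ℝ, V) 𝓘(ℝ, ℝ) ∞ (fun q => ⟪N q, a⟫ * K q) := hsa.mul hK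
  have hm2 : ContMDiff 𝓘(ℝ, V) 𝓘(ℝ, ℝ) ∞ (fun q => ⟪N q, b⟫ * K q) := hsb.mul hK
  have h1 := first_variation hW hF hmin hV b hm1
  have h2 := first_variation hW hF hmin hV a hm2
  have hcF : Continuous F := hF.smooth.continuous
  have i1 := integrable_of_cont (volM V F) (continuous_dl hF b hm1)
  have i2 := integrable_of_cont (volM V F) (continuous_dl hF a hm2)
  have i3 := integrable_of_cont (volM V F) (g := fun p => ⟪b, F p⟫ * (⟪N p, a⟫ * K p))
    ((continuous_const.inner hcF).mul hm1.continuous)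
  have i4 := integrable_of_cont (volM V F) (g := fun p => ⟪a, F p⟫ * (⟪N p, b⟫ * K p))
    ((continuous_const.inner hcF).mul hm2.continuous)
  have h3 : ∫ p, (dl V F b (fun q => ⟪N q, a⟫ * K q) p
        - dl V F a (fun q => ⟪N q, b⟫ * K q) p) ∂(volM V F)
      = (finrank ℝ V : ℝ) * ∫ p, (⟪b, F p⟫ * (⟪N p, a⟫ * K p)
          - ⟪a, F p⟫ * (⟪N p, b⟫ * K p)) ∂(volM V F) := by
    rw [integral_sub i1 i2, integral_sub i3 i4, mul_sub]
    exact congrArg₂ (· - ·) h1 h2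
  refine Eq.trans ?_ (h3.trans ?_)
  · refine integral_congr_ae ?_
    filter_upwards with p
    rw [dl_mul b hsa hK, dl_mul a hsb hK, dl_inner b hNs, dl_inner a hNs,
      dl_N_symm hW hF hNs hN a b]
    ring
  · congr 1
    refine integral_congr_ae ?_
    filter_upwards with p
    rw [real_inner_comm (F p) b, real_inner_comm (F p) a]
    ring

lemma dl_FF (hW : finrank ℝ W = finrank ℝ V + 2) {F : M → W}
    (hF : SphImm V F) {N : M → W} (hN : ∀ x, IsUnitNormal V F x (N x)) (a y : W) (x : M) :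
    dl V F a (fun q => ⟪F q, y⟫) x = ⟪a, y⟫ - ⟪F x, a⟫ * ⟪F x, y⟫ - ⟪N x, a⟫ * ⟪N x, y⟫ := by
  rw [dl_inner a hF.smooth, dl_F hW hF hN]
  simp only [inner_sub_left, real_inner_smul_left]
  rw [real_inner_comm (F x) a, real_inner_comm (N x) a]

/-- the first row -/
theorem row_S1 (hW : finrank ℝ W = finrank ℝ V + 2) {F : M → W}
    (hF : SphImm V F) (hmin : ∀ x n, IsUnitNormal V F x n → meanCurv V F x n = 0)
    {N : M → W} (hN : ∀ x, IsUnitNormal V F x (N x)) (z : M)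
    {K fs ft : M → ℝ} (hK : ContMDiff 𝓘(ℝ, V) 𝓘(ℝ, ℝ) ∞ K)
    (hd : ∀ a x, dl V F a K x = fs x * dl V F a (fun q => ⟪F q, F z⟫) x
      + ft x * dl V F a (fun q => ⟪F q, N z⟫) x) :
    Integrable (fun x => S1 (finrank ℝ V) ⟪F x, F z⟫ ⟪F x, N z⟫ ⟪N x, F z⟫ ⟪N x, N z⟫
      (K x) (fs x) (ft x)) (volM V F) ∧
    ∫ x, S1 (finrank ℝ V) ⟪F x, F z⟫ ⟪F x, N z⟫ ⟪N x, F z⟫ ⟪N x, N z⟫
      (K x) (fs x) (ft x) ∂(volM V F) = 0 := by
  have hV : VolChart V F := volChart_of_sphImm hF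
  have hfin : IsFiniteMeasure (volM V F) := isFiniteMeasure_volM hF
  have hcF : Continuous F := hF.smooth.continuous
  have e : (fun x => S1 (finrank ℝ V) ⟪F x, F z⟫ ⟪F x, N z⟫ ⟪N x, F z⟫ ⟪N x, N z⟫
      (K x) (fs x) (ft x)) = fun x => dl V F (F z) K x - (finrank ℝ V : ℝ) * (⟪F z, F x⟫ * K x) := by
    funext x
    rw [hd, dl_FF hW hF hN, dl_FF hW hF hN, (hN z).2.1, real_inner_self_eq_norm_sq, hF.unit,
      real_inner_comm (F z) (F x)]
    unfold S1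
    ring
  have i1 := integrable_of_cont (volM V F) (continuous_dl hF (F z) hK)
  have i2 := integrable_of_cont (volM V F) (g := fun x => ⟪F z, F x⟫ * K x)
    ((continuous_const.inner hcF).mul hK.continuous)
  rw [e]
  refine ⟨i1.sub (i2.const_mul _), ?_⟩
  rw [integral_sub i1 (i2.const_mul _), integral_const_mul, first_variation hW hF hmin hV _ hK,
    sub_self]

/-- the second row -/
theorem row_S2 (hW : finrank ℝ W = finrank ℝ V + 2) {F : M → W}
    (hF : SphImm V F) (hmin : ∀ x n, IsUnitNormal V F x n → meanCurv V F x n = 0)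
    {N : M → W} (hN : ∀ x, IsUnitNormal V F x (N x)) (z : M)
    {K fs ft : M → ℝ} (hK : ContMDiff 𝓘(ℝ, V) 𝓘(ℝ, ℝ) ∞ K)
    (hd : ∀ a x, dl V F a K x = fs x * dl V F a (fun q => ⟪F q, F z⟫) x
      + ft x * dl V F a (fun q => ⟪F q, N z⟫) x) :
    Integrable (fun x => S2 (finrank ℝ V) ⟪F x, F z⟫ ⟪F x, N z⟫ ⟪N x, F z⟫ ⟪N x, N z⟫
      (K x) (fs x) (ft x)) (volM V F) ∧
    ∫ x, S2 (finrank ℝ V) ⟪F x, F z⟫ ⟪F x, N z⟫ ⟪N x, F z⟫ ⟪N x, N z⟫
      (K x) (fs x) (ft x) ∂(volM V F) = 0 := by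
  have hV : VolChart V F := volChart_of_sphImm hF
  have hfin : IsFiniteMeasure (volM V F) := isFiniteMeasure_volM hF
  have hcF : Continuous F := hF.smooth.continuous
  have e : (fun x => S2 (finrank ℝ V) ⟪F x, F z⟫ ⟪F x, N z⟫ ⟪N x, F z⟫ ⟪N x, N z⟫
      (K x) (fs x) (ft x)) = fun x => dl V F (N z) K x - (finrank ℝ V : ℝ) * (⟪N z, F x⟫ * K x) := by
    funext x
    rw [hd, dl_FF hW hF hN, dl_FF hW hF hN, real_inner_comm (F z) (N z), (hN z).2.1,
      real_inner_self_eq_norm_sq, (hN z).1, real_inner_comm (N z) (F x)]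
    unfold S2
    ring
  have i1 := integrable_of_cont (volM V F) (continuous_dl hF (N z) hK)
  have i2 := integrable_of_cont (volM V F) (g := fun x => ⟪N z, F x⟫ * K x)
    ((continuous_const.inner hcF).mul hK.continuous)
  rw [e]
  refine ⟨i1.sub (i2.const_mul _), ?_⟩
  rw [integral_sub i1 (i2.const_mul _), integral_const_mul, first_variation hW hF hmin hV _ hK,
    sub_self]

/-- the third row -/
theorem row_CC (hW : finrank ℝ W = finrank ℝ V + 2) {F : M → W}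
    (hF : SphImm V F) (hmin : ∀ x n, IsUnitNormal V F x n → meanCurv V F x n = 0)
    {N : M → W} (hNs : ContMDiff 𝓘(ℝ, V) 𝓘(ℝ, W) ∞ N) (hN : ∀ x, IsUnitNormal V F x (N x)) (z : M)
    {K fs ft : M → ℝ} (hK : ContMDiff 𝓘(ℝ, V) 𝓘(ℝ, ℝ) ∞ K)
    (hd : ∀ a x, dl V F a K x = fs x * dl V F a (fun q => ⟪F q, F z⟫) x
      + ft x * dl V F a (fun q => ⟪F q, N z⟫) x) :
    Integrable (fun x => CC (finrank ℝ V) ⟪F x, F z⟫ ⟪F x, N z⟫ ⟪N x, F z⟫ ⟪N x, N z⟫
      (K x) (fs x) (ft x)) (volM V F) ∧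
    ∫ x, CC (finrank ℝ V) ⟪F x, F z⟫ ⟪F x, N z⟫ ⟪N x, F z⟫ ⟪N x, N z⟫
      (K x) (fs x) (ft x) ∂(volM V F) = 0 := by
  have hfin : IsFiniteMeasure (volM V F) := isFiniteMeasure_volM hF
  have hcF : Continuous F := hF.smooth.continuous
  have hcN : Continuous N := hNs.continuous
  have e : (fun x => CC (finrank ℝ V) ⟪F x, F z⟫ ⟪F x, N z⟫ ⟪N x, F z⟫ ⟪N x, N z⟫
      (K x) (fs x) (ft x)) = fun x => (⟪N x, F z⟫ * dl V F (N z) K x - ⟪N x, N z⟫ * dl V F (F z) K x)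
        - (finrank ℝ V : ℝ) * ((⟪N x, F z⟫ * ⟪F x, N z⟫ - ⟪N x, N z⟫ * ⟪F x, F z⟫) * K x) := by
    funext x
    rw [hd, hd, dl_FF hW hF hN, dl_FF hW hF hN, dl_FF hW hF hN, dl_FF hW hF hN,
      real_inner_comm (F z) (N z), (hN z).2.1, real_inner_self_eq_norm_sq,
      real_inner_self_eq_norm_sq, (hN z).1, hF.unit]
    unfold CC
    ring
  have i1 : Integrable (fun x => ⟪N x, F z⟫ * dl V F (N z) K x - ⟪N x, N z⟫ * dl V F (F z) K x)
      (volM V F) := integrable_of_cont _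
    (((hcN.inner continuous_const).mul (continuous_dl hF (N z) hK)).sub
      ((hcN.inner continuous_const).mul (continuous_dl hF (F z) hK)))
  have i2 : Integrable (fun x => (⟪N x, F z⟫ * ⟪F x, N z⟫ - ⟪N x, N z⟫ * ⟪F x, F z⟫) * K x)
      (volM V F) := integrable_of_cont _
    ((((hcN.inner continuous_const).mul (hcF.inner continuous_const)).sub
      ((hcN.inner continuous_const).mul (hcF.inner continuous_const))).mul hK.continuous)
  rw [e]
  refine ⟨i1.sub (i2.const_mul _), ?_⟩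
  rw [integral_sub i1 (i2.const_mul _), integral_const_mul,
    closed_id hW hF hmin hNs hN (F z) (N z) hK, sub_self]

/-- the kernel `(1 - T s)⁻¹ ^ q` -/
noncomputable def ker (T : ℝ) (q : ℕ) (s : ℝ) : ℝ := ((1 - T * s) ^ q)⁻¹

lemma hasDerivAt_ker {T s : ℝ} {q : ℕ} (h : 1 - T * s ≠ 0) :
    HasDerivAt (ker T q) (q * T * ker T (q + 1) s) s := by
  have h1 : HasDerivAt (fun s => 1 - T * s) (-T) s := by
    simpa using ((hasDerivAt_id s).const_mul T).const_sub 1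
  have h2 := (h1.fun_pow q).fun_inv (pow_ne_zero q h)
  refine h2.congr_deriv ?_
  unfold ker
  rcases q with _ | q
  · simp
  · simp only [Nat.add_sub_cancel]
    field_simp
    ring

lemma contDiffAt_ker {T s : ℝ} {q : ℕ} (h : 1 - T * s ≠ 0) : ContDiffAt ℝ ∞ (ker T q) s := by
  have h1 : ContDiffAt ℝ ∞ (fun s : ℝ => (1 - T * s) ^ q) s :=
    (contDiffAt_const.sub (contDiffAt_const.mul contDiffAt_id)).pow q
  exact h1.inv (pow_ne_zero q h)

/-- a kernel times a power of t -/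
lemma kernel_data {F : M → W} (hF : SphImm V F) {T : ℝ} (N : M → W)
    (z : M) (hT : ∀ x, 1 - T * ⟪F x, F z⟫ ≠ 0) (q j : ℕ) :
    ContMDiff 𝓘(ℝ, V) 𝓘(ℝ, ℝ) ∞ (fun x => ⟪F x, N z⟫ ^ j * ker T q ⟪F x, F z⟫) ∧
    ∀ a x, dl V F a (fun x => ⟪F x, N z⟫ ^ j * ker T q ⟪F x, F z⟫) x
      = (⟪F x, N z⟫ ^ j * (q * T * ker T (q + 1) ⟪F x, F z⟫)) * dl V F a (fun q => ⟪F q, F z⟫) x
      + (j * ⟪F x, N z⟫ ^ (j - 1) * ker T q ⟪F x, F z⟫) * dl V F a (fun q => ⟪F q, N z⟫) x := by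
  have hs := smooth_inner hF.smooth (F z)
  have ht := smooth_inner hF.smooth (N z)
  have h1 := smooth_comp hs (w := ker T q) (fun x => contDiffAt_ker (hT x))
  have h2 := smooth_comp ht (w := fun u => u ^ j) (fun x => contDiffAt_id.pow j)
  refine ⟨h2.mul h1, ?_⟩
  intro a x
  rw [dl_mul a h2 h1, dl_comp a hs x (hasDerivAt_ker (hT x)),
    dl_comp (w := fun u => u ^ j) a ht x (hasDerivAt_pow j _)]
  ring

end

end Vale.Agent.P224.SM
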